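import Vale.Agent.P021.C3.ChkAll

/-!
# The third Archimedean certificate
-/

open Polynomial

namespace Vale.Agent.P021.Det

open Vale.Agent.P021.DetX

/-- the path for the integral -/
noncomputable def S3 : Set ℂ :=
  segment ℝ (pnt10 (0, 0)) (pnt10 (0, 1309)) ∪ segment ℝ (pnt10 (0, 1309)) (pnt10 (-1024, 2048))

/-- the polygon around the pole -/
noncomputable def T3 : Set ℂ :=
  segment ℝ (pnt10 (8623, 0)) (pnt10 (7243, 6835)) ∪
    (segment ℝ (pnt10 (7243, 6835)) (pnt10 (3072, 4608)) ∪
      segment ℝ (pnt10 (3072, 4608)) (pnt10 (-2560, 0)))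

/-- the vertices of the path -/
noncomputable def l3 : List ℂ := [pnt10 (0, 0), pnt10 (0, 1309), pnt10 (-1024, 2048)]

/-- the vertices of the polygon around the pole -/
noncomputable def l4 : List ℂ :=
  [pnt10 (8623, 0), pnt10 (7243, 6835), pnt10 (3072, 4608), pnt10 (-2560, 0)]

theorem l3_path : PathIn S3 l3 :=
  ⟨Set.subset_union_left, Set.subset_union_right, trivial⟩

theorem l4_path : PathIn T3 l4 :=
  ⟨Set.subset_union_left, Set.subset_union_left.trans Set.subset_union_right,
    Set.subset_union_right.trans Set.subset_union_right, trivial⟩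

theorem S3_bounded : Bornology.IsBounded S3 := (segment_bounded _ _).union (segment_bounded _ _)

theorem T3_bounded : Bornology.IsBounded T3 :=
  (segment_bounded _ _).union ((segment_bounded _ _).union (segment_bounded _ _))

theorem betBound_T3 : BetBound T3 := by
  refine betBound_polygon l4 (-5 / 2) (8623 / 1024) ?_ ?_ (by norm_num) (by norm_num) (by norm_num)
    T3 l4_path ⟨?_, ?_, ?_, trivial⟩
  · simp only [l4, pnt10, Int.cast_ofNat, Complex.ofReal_div, Complex.ofReal_ofNat, Complex.ofReal_pow, Int.cast_zero, zero_div, Complex.ofReal_zero, zero_mul, add_zero, Int.reduceNeg, Int.cast_neg, Complex.ofReal_neg, List.head?_cons, Option.some.injEq]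
    norm_num
  · simp only [l4, pnt10, Int.cast_ofNat, Complex.ofReal_div, Complex.ofReal_ofNat, Complex.ofReal_pow, Int.cast_zero, zero_div, Complex.ofReal_zero, zero_mul, add_zero, Int.reduceNeg, Int.cast_neg, Complex.ofReal_neg, List.getLast?_cons_cons, List.getLast?_singleton, Option.some.injEq]
    norm_num
  · refine BT_seg ?_ ?_ ?_ ?_ (Or.inl ⟨?_, ?_⟩) <;> simp [pnt10] <;> norm_num
  · refine BT_seg ?_ ?_ ?_ ?_ (Or.inr (Or.inl ⟨?_, ?_⟩)) <;> simp [pnt10] <;> norm_num
  · refine BT_seg ?_ ?_ ?_ ?_ (Or.inr (Or.inr ⟨?_, ?_⟩)) <;> simp [pnt10] <;> norm_num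

theorem good3_S3 : ∀ s ∈ S3, GoodC C3.cfs 12000 26000 52000 C3.clev 0 s := by
  rintro s (hs | hs)
  · exact runSegmM_segment C3.datOK (by decide) (by decide) (by decide) (by decide)
      (by decide +kernel) (by decide +kernel) (by decide +kernel) C3.chk0 s hs
  · exact runSegmM_segment C3.datOK (by decide) (by decide) (by decide) (by decide)
      (by decide +kernel) (by decide +kernel) (by decide +kernel) C3.chk1 s hs

theorem good3_T3 : ∀ s ∈ T3, GoodC C3.cfs 12000 26000 52000 C3.clev 687390851072 s := by
  rintro s (hs | hs | hs)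
  · exact runSegmM_segment C3.datOK (by decide) (by decide) (by decide) (by decide)
      (by decide +kernel) (by decide +kernel) (by decide +kernel) C3.chk2 s hs
  · exact runSegmM_segment C3.datOK (by decide) (by decide) (by decide) (by decide)
      (by decide +kernel) (by decide +kernel) (by decide +kernel) C3.chk3 s hs
  · exact runSegmM_segment C3.datOK (by decide) (by decide) (by decide) (by decide)
      (by decide +kernel) (by decide +kernel) (by decide +kernel) C3.chk4 s hs

theorem clev3_mem (j : ℕ) (hj : j ≤ 33) : C3.clev.getD j ([], 0) ∈ C3.clev := by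
  have h : j < C3.clev.length := by
    have : C3.clev.length = 34 := by decide
    omega
  rw [List.getD_eq_getElem _ _ h]
  exact List.getElem_mem h

theorem clev3_len (j : ℕ) (hj : j ≤ 33) :
    (C3.clev.getD j ([], 0)).1.length ≤ C3.cfs.length := by
  interval_cases j <;> decide

/-- the third certificate -/
noncomputable def cert3 : Cert 20000 24000 52000 104000 33 (655547 * Real.log 2) S3 T3 where
  F j := prodF C3.cfs (C3.clev.getD j ([], 0)).1
  d j := C3.cdeg.getD j 0
  L j := ((C3.clev.getD j ([], 0)).2 : ℝ) * cu
  monic j _ := prodF_monic _ _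
  deg j hj := by
    rw [prodF_natDegree]
    interval_cases j <;> decide
  d_zero := by decide
  d_last := by decide
  d_lt j hj := by
    interval_cases j <;> decide
  path j hj s hs := by
    have h := good3_S3 s hs _ (clev3_mem j hj) (clev3_len j hj)
    simpa using h
  circ j hj s hs := by
    have h := good3_T3 s hs _ (clev3_mem j hj) (clev3_len j hj)
    have e : ((C3.clev.getD j ([], 0)).2 : ℝ) * cu + 655547 * Real.log 2 =
        (((C3.clev.getD j ([], 0)).2 : ℝ) + ((687390851072 : ℤ) : ℝ)) * cu := by
      unfold cu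
      push_cast
      ring
    rw [e]
    exact h

theorem cert3_total : cert3.total = -(659767922842675 / 131072) * Real.log 2 := by
  unfold Cert.total
  simp only [cert3, Finset.sum_range_succ, Finset.sum_range_zero, C3.cdeg, C3.clev,
    List.getD_cons_zero, List.getD_cons_succ, cu]
  push_cast
  ring

theorem result_c3 : irrationalityExponent Real.pi ≤ ((5.999 : ℝ) : EReal) := by
  have hl2 := Real.log_two_gt_d9
  have hl2' := Real.log_two_lt_d9
  refine final_bound3 4000 (by norm_num) cert3 ((659767922842675 / 131072) * Real.log 2) 5.999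
    (by rw [cert3_total]; linarith) (by positivity) betBound_T3 T3_bounded l3 0 ?_ ?_ ?_ l3_path
    S3_bounded (by norm_num) ?_ ?_
  · simp [l3, pnt10_zero]
  · simp [l3, pnt10_e]
  · intro v hv
    simp only [l3, List.mem_cons, List.not_mem_nil, or_false] at hv
    rcases hv with rfl | rfl | rfl <;> simp [pnt10] <;> norm_num
  · norm_num
    linarith
  · norm_num
    nlinarith

end Vale.Agent.P021.Det
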