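import Vale.Agent.P021.C3.Dat

set_option maxRecDepth 100000
set_option linter.all false

namespace Vale.Agent.P021.C3

open Vale.Agent.P021.Det Vale.Agent.P021.DetX

/-- subdivision 0_0 -/
def part0_0 : List ℕ :=
  [355, 488, 539, 557]

theorem chk0_0 :
    runSegmM rts 12000 26000 52000 pk bnds ones 0 (0, 0) (0, 1309) 0 part0_0 = true := by
  decide +kernel

/-- subdivision 0_1 -/
def part0_1 : List ℕ :=
  [566, 573, 579, 584]

theorem chk0_1 :
    runSegmM rts 12000 26000 52000 pk bnds ones 0 (0, 0) (0, 1309) 557 part0_1 = true := by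
  decide +kernel

/-- subdivision 0_2 -/
def part0_2 : List ℕ :=
  [592, 597, 602, 606]

theorem chk0_2 :
    runSegmM rts 12000 26000 52000 pk bnds ones 0 (0, 0) (0, 1309) 584 part0_2 = true := by
  decide +kernel

/-- subdivision 0_3 -/
def part0_3 : List ℕ :=
  [614, 617, 620, 623]

theorem chk0_3 :
    runSegmM rts 12000 26000 52000 pk bnds ones 0 (0, 0) (0, 1309) 606 part0_3 = true := by
  decide +kernel

/-- subdivision 0_4 -/
def part0_4 : List ℕ :=
  [629, 634, 637, 640]

theorem chk0_4 :
    runSegmM rts 12000 26000 52000 pk bnds ones 0 (0, 0) (0, 1309) 623 part0_4 = true := by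
  decide +kernel

/-- subdivision 0_5 -/
def part0_5 : List ℕ :=
  [643, 650, 654, 657]

theorem chk0_5 :
    runSegmM rts 12000 26000 52000 pk bnds ones 0 (0, 0) (0, 1309) 640 part0_5 = true := by
  decide +kernel

/-- subdivision 0_6 -/
def part0_6 : List ℕ :=
  [660, 663, 671, 674]

theorem chk0_6 :
    runSegmM rts 12000 26000 52000 pk bnds ones 0 (0, 0) (0, 1309) 657 part0_6 = true := by
  decide +kernel

/-- subdivision 0_7 -/
def part0_7 : List ℕ :=
  [677, 680, 683, 692]

theorem chk0_7 :
    runSegmM rts 12000 26000 52000 pk bnds ones 0 (0, 0) (0, 1309) 674 part0_7 = true := by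
  decide +kernel

/-- subdivision 0_8 -/
def part0_8 : List ℕ :=
  [695, 698, 700, 703]

theorem chk0_8 :
    runSegmM rts 12000 26000 52000 pk bnds ones 0 (0, 0) (0, 1309) 692 part0_8 = true := by
  decide +kernel

/-- subdivision 0_9 -/
def part0_9 : List ℕ :=
  [713, 716, 720, 723]

theorem chk0_9 :
    runSegmM rts 12000 26000 52000 pk bnds ones 0 (0, 0) (0, 1309) 703 part0_9 = true := by
  decide +kernel

/-- subdivision 0_10 -/
def part0_10 : List ℕ :=
  [732, 735, 738, 741]

theorem chk0_10 :
    runSegmM rts 12000 26000 52000 pk bnds ones 0 (0, 0) (0, 1309) 723 part0_10 = true := by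
  decide +kernel

/-- subdivision 0_11 -/
def part0_11 : List ℕ :=
  [746, 754, 757, 760]

theorem chk0_11 :
    runSegmM rts 12000 26000 52000 pk bnds ones 0 (0, 0) (0, 1309) 741 part0_11 = true := by
  decide +kernel

/-- subdivision 0_12 -/
def part0_12 : List ℕ :=
  [763, 771, 775, 778]

theorem chk0_12 :
    runSegmM rts 12000 26000 52000 pk bnds ones 0 (0, 0) (0, 1309) 760 part0_12 = true := by
  decide +kernel

/-- subdivision 0_13 -/
def part0_13 : List ℕ :=
  [781, 784, 792, 797]

theorem chk0_13 :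
    runSegmM rts 12000 26000 52000 pk bnds ones 0 (0, 0) (0, 1309) 778 part0_13 = true := by
  decide +kernel

/-- subdivision 0_14 -/
def part0_14 : List ℕ :=
  [800, 803, 806, 816]

theorem chk0_14 :
    runSegmM rts 12000 26000 52000 pk bnds ones 0 (0, 0) (0, 1309) 797 part0_14 = true := by
  decide +kernel

/-- subdivision 0_15 -/
def part0_15 : List ℕ :=
  [819, 822, 825, 829]

theorem chk0_15 :
    runSegmM rts 12000 26000 52000 pk bnds ones 0 (0, 0) (0, 1309) 816 part0_15 = true := by
  decide +kernel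

/-- subdivision 0_16 -/
def part0_16 : List ℕ :=
  [839, 842, 846, 849]

theorem chk0_16 :
    runSegmM rts 12000 26000 52000 pk bnds ones 0 (0, 0) (0, 1309) 829 part0_16 = true := by
  decide +kernel

/-- subdivision 0_17 -/
def part0_17 : List ℕ :=
  [857, 862, 865, 868]

theorem chk0_17 :
    runSegmM rts 12000 26000 52000 pk bnds ones 0 (0, 0) (0, 1309) 849 part0_17 = true := by
  decide +kernel

/-- subdivision 0_18 -/
def part0_18 : List ℕ :=
  [871, 880, 885, 888]

theorem chk0_18 :
    runSegmM rts 12000 26000 52000 pk bnds ones 0 (0, 0) (0, 1309) 868 part0_18 = true := by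
  decide +kernel

/-- subdivision 0_19 -/
def part0_19 : List ℕ :=
  [892, 895, 905, 909]

theorem chk0_19 :
    runSegmM rts 12000 26000 52000 pk bnds ones 0 (0, 0) (0, 1309) 888 part0_19 = true := by
  decide +kernel

/-- subdivision 0_20 -/
def part0_20 : List ℕ :=
  [913, 917, 926, 933]

theorem chk0_20 :
    runSegmM rts 12000 26000 52000 pk bnds ones 0 (0, 0) (0, 1309) 909 part0_20 = true := by
  decide +kernel

/-- subdivision 0_21 -/
def part0_21 : List ℕ :=
  [937, 941, 945, 955]

theorem chk0_21 :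
    runSegmM rts 12000 26000 52000 pk bnds ones 0 (0, 0) (0, 1309) 933 part0_21 = true := by
  decide +kernel

/-- subdivision 0_22 -/
def part0_22 : List ℕ :=
  [959, 964, 969, 982]

theorem chk0_22 :
    runSegmM rts 12000 26000 52000 pk bnds ones 0 (0, 0) (0, 1309) 955 part0_22 = true := by
  decide +kernel

/-- subdivision 0_23 -/
def part0_23 : List ℕ :=
  [987, 992, 997, 1008]

theorem chk0_23 :
    runSegmM rts 12000 26000 52000 pk bnds ones 0 (0, 0) (0, 1309) 982 part0_23 = true := by
  decide +kernel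

/-- subdivision 0_24 -/
def part0_24 : List ℕ :=
  [1017, 1024]

theorem chk0_24 :
    runSegmM rts 12000 26000 52000 pk bnds ones 0 (0, 0) (0, 1309) 1008 part0_24 = true := by
  decide +kernel

/-- subdivision 1_0 -/
def part1_0 : List ℕ :=
  [9, 17, 25, 31]

theorem chk1_0 :
    runSegmM rts 12000 26000 52000 pk bnds ones 0 (0, 1309) (-1024, 2048) 0 part1_0 = true := by
  decide +kernel

/-- subdivision 1_1 -/
def part1_1 : List ℕ :=
  [36, 48, 52, 56]

theorem chk1_1 :
    runSegmM rts 12000 26000 52000 pk bnds ones 0 (0, 1309) (-1024, 2048) 31 part1_1 = true := by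
  decide +kernel

/-- subdivision 1_2 -/
def part1_2 : List ℕ :=
  [61, 67, 71, 74]

theorem chk1_2 :
    runSegmM rts 12000 26000 52000 pk bnds ones 0 (0, 1309) (-1024, 2048) 56 part1_2 = true := by
  decide +kernel

/-- subdivision 1_3 -/
def part1_3 : List ℕ :=
  [82, 85, 90, 95]

theorem chk1_3 :
    runSegmM rts 12000 26000 52000 pk bnds ones 0 (0, 1309) (-1024, 2048) 74 part1_3 = true := by
  decide +kernel

/-- subdivision 1_4 -/
def part1_4 : List ℕ :=
  [100, 105, 111, 115]

theorem chk1_4 :
    runSegmM rts 12000 26000 52000 pk bnds ones 0 (0, 1309) (-1024, 2048) 95 part1_4 = true := by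
  decide +kernel

/-- subdivision 1_5 -/
def part1_5 : List ℕ :=
  [118, 121, 127, 130]

theorem chk1_5 :
    runSegmM rts 12000 26000 52000 pk bnds ones 0 (0, 1309) (-1024, 2048) 115 part1_5 = true := by
  decide +kernel

/-- subdivision 1_6 -/
def part1_6 : List ℕ :=
  [134, 140, 143, 146]

theorem chk1_6 :
    runSegmM rts 12000 26000 52000 pk bnds ones 0 (0, 1309) (-1024, 2048) 130 part1_6 = true := by
  decide +kernel

/-- subdivision 1_7 -/
def part1_7 : List ℕ :=
  [148, 154, 157, 160]

theorem chk1_7 :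
    runSegmM rts 12000 26000 52000 pk bnds ones 0 (0, 1309) (-1024, 2048) 146 part1_7 = true := by
  decide +kernel

end Vale.Agent.P021.C3
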