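import Vale.Agent.P021.C3.Dat

set_option maxRecDepth 100000
set_option linter.all false

namespace Vale.Agent.P021.C3

open Vale.Agent.P021.Det Vale.Agent.P021.DetX

/-- subdivision 1_8 -/
def part1_8 : List ℕ :=
  [162, 168, 170, 173]

theorem chk1_8 :
    runSegmM rts 12000 26000 52000 pk bnds ones 0 (0, 1309) (-1024, 2048) 160 part1_8 = true := by
  decide +kernel

/-- subdivision 1_9 -/
def part1_9 : List ℕ :=
  [177, 181, 183, 185]

theorem chk1_9 :
    runSegmM rts 12000 26000 52000 pk bnds ones 0 (0, 1309) (-1024, 2048) 173 part1_9 = true := by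
  decide +kernel

/-- subdivision 1_10 -/
def part1_10 : List ℕ :=
  [187, 193, 195, 198]

theorem chk1_10 :
    runSegmM rts 12000 26000 52000 pk bnds ones 0 (0, 1309) (-1024, 2048) 185 part1_10 = true := by
  decide +kernel

/-- subdivision 1_11 -/
def part1_11 : List ℕ :=
  [200, 205, 207, 209]

theorem chk1_11 :
    runSegmM rts 12000 26000 52000 pk bnds ones 0 (0, 1309) (-1024, 2048) 198 part1_11 = true := by
  decide +kernel

/-- subdivision 1_12 -/
def part1_12 : List ℕ :=
  [211, 216, 218, 220]

theorem chk1_12 :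
    runSegmM rts 12000 26000 52000 pk bnds ones 0 (0, 1309) (-1024, 2048) 209 part1_12 = true := by
  decide +kernel

/-- subdivision 1_13 -/
def part1_13 : List ℕ :=
  [222, 228, 230, 232]

theorem chk1_13 :
    runSegmM rts 12000 26000 52000 pk bnds ones 0 (0, 1309) (-1024, 2048) 220 part1_13 = true := by
  decide +kernel

/-- subdivision 1_14 -/
def part1_14 : List ℕ :=
  [234, 239, 241, 243]

theorem chk1_14 :
    runSegmM rts 12000 26000 52000 pk bnds ones 0 (0, 1309) (-1024, 2048) 232 part1_14 = true := by
  decide +kernel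

/-- subdivision 1_15 -/
def part1_15 : List ℕ :=
  [245, 250, 252, 254]

theorem chk1_15 :
    runSegmM rts 12000 26000 52000 pk bnds ones 0 (0, 1309) (-1024, 2048) 243 part1_15 = true := by
  decide +kernel

/-- subdivision 1_16 -/
def part1_16 : List ℕ :=
  [256, 260, 262, 264]

theorem chk1_16 :
    runSegmM rts 12000 26000 52000 pk bnds ones 0 (0, 1309) (-1024, 2048) 254 part1_16 = true := by
  decide +kernel

/-- subdivision 1_17 -/
def part1_17 : List ℕ :=
  [266, 272, 274, 276]

theorem chk1_17 :
    runSegmM rts 12000 26000 52000 pk bnds ones 0 (0, 1309) (-1024, 2048) 264 part1_17 = true := by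
  decide +kernel

/-- subdivision 1_18 -/
def part1_18 : List ℕ :=
  [278, 282, 284, 286]

theorem chk1_18 :
    runSegmM rts 12000 26000 52000 pk bnds ones 0 (0, 1309) (-1024, 2048) 276 part1_18 = true := by
  decide +kernel

/-- subdivision 1_19 -/
def part1_19 : List ℕ :=
  [288, 292, 294, 296]

theorem chk1_19 :
    runSegmM rts 12000 26000 52000 pk bnds ones 0 (0, 1309) (-1024, 2048) 286 part1_19 = true := by
  decide +kernel

/-- subdivision 1_20 -/
def part1_20 : List ℕ :=
  [298, 303, 305, 308]

theorem chk1_20 :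
    runSegmM rts 12000 26000 52000 pk bnds ones 0 (0, 1309) (-1024, 2048) 296 part1_20 = true := by
  decide +kernel

/-- subdivision 1_21 -/
def part1_21 : List ℕ :=
  [312, 314, 316, 318]

theorem chk1_21 :
    runSegmM rts 12000 26000 52000 pk bnds ones 0 (0, 1309) (-1024, 2048) 308 part1_21 = true := by
  decide +kernel

/-- subdivision 1_22 -/
def part1_22 : List ℕ :=
  [323, 325, 327, 328]

theorem chk1_22 :
    runSegmM rts 12000 26000 52000 pk bnds ones 0 (0, 1309) (-1024, 2048) 318 part1_22 = true := by
  decide +kernel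

/-- subdivision 1_23 -/
def part1_23 : List ℕ :=
  [330, 333, 334, 336]

theorem chk1_23 :
    runSegmM rts 12000 26000 52000 pk bnds ones 0 (0, 1309) (-1024, 2048) 328 part1_23 = true := by
  decide +kernel

/-- subdivision 1_24 -/
def part1_24 : List ℕ :=
  [338, 343, 345, 347]

theorem chk1_24 :
    runSegmM rts 12000 26000 52000 pk bnds ones 0 (0, 1309) (-1024, 2048) 336 part1_24 = true := by
  decide +kernel

/-- subdivision 1_25 -/
def part1_25 : List ℕ :=
  [348, 350, 353, 354]

theorem chk1_25 :
    runSegmM rts 12000 26000 52000 pk bnds ones 0 (0, 1309) (-1024, 2048) 347 part1_25 = true := by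
  decide +kernel

/-- subdivision 1_26 -/
def part1_26 : List ℕ :=
  [356, 358, 363, 364]

theorem chk1_26 :
    runSegmM rts 12000 26000 52000 pk bnds ones 0 (0, 1309) (-1024, 2048) 354 part1_26 = true := by
  decide +kernel

/-- subdivision 1_27 -/
def part1_27 : List ℕ :=
  [366, 367, 370, 373]

theorem chk1_27 :
    runSegmM rts 12000 26000 52000 pk bnds ones 0 (0, 1309) (-1024, 2048) 364 part1_27 = true := by
  decide +kernel

/-- subdivision 1_28 -/
def part1_28 : List ℕ :=
  [374, 376, 378, 382]

theorem chk1_28 :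
    runSegmM rts 12000 26000 52000 pk bnds ones 0 (0, 1309) (-1024, 2048) 373 part1_28 = true := by
  decide +kernel

/-- subdivision 1_29 -/
def part1_29 : List ℕ :=
  [383, 385, 387, 392]

theorem chk1_29 :
    runSegmM rts 12000 26000 52000 pk bnds ones 0 (0, 1309) (-1024, 2048) 382 part1_29 = true := by
  decide +kernel

/-- subdivision 1_30 -/
def part1_30 : List ℕ :=
  [393, 395, 396, 399]

theorem chk1_30 :
    runSegmM rts 12000 26000 52000 pk bnds ones 0 (0, 1309) (-1024, 2048) 392 part1_30 = true := by
  decide +kernel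

/-- subdivision 1_31 -/
def part1_31 : List ℕ :=
  [400, 401, 402, 403]

theorem chk1_31 :
    runSegmM rts 12000 26000 52000 pk bnds ones 0 (0, 1309) (-1024, 2048) 399 part1_31 = true := by
  decide +kernel

/-- subdivision 1_32 -/
def part1_32 : List ℕ :=
  [405, 410, 411, 412]

theorem chk1_32 :
    runSegmM rts 12000 26000 52000 pk bnds ones 0 (0, 1309) (-1024, 2048) 403 part1_32 = true := by
  decide +kernel

/-- subdivision 1_33 -/
def part1_33 : List ℕ :=
  [414, 416, 419, 420]

theorem chk1_33 :
    runSegmM rts 12000 26000 52000 pk bnds ones 0 (0, 1309) (-1024, 2048) 412 part1_33 = true := by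
  decide +kernel

/-- subdivision 1_34 -/
def part1_34 : List ℕ :=
  [422, 424, 428, 429]

theorem chk1_34 :
    runSegmM rts 12000 26000 52000 pk bnds ones 0 (0, 1309) (-1024, 2048) 420 part1_34 = true := by
  decide +kernel

/-- subdivision 1_35 -/
def part1_35 : List ℕ :=
  [430, 431, 432, 434]

theorem chk1_35 :
    runSegmM rts 12000 26000 52000 pk bnds ones 0 (0, 1309) (-1024, 2048) 429 part1_35 = true := by
  decide +kernel

/-- subdivision 1_36 -/
def part1_36 : List ℕ :=
  [437, 438, 439, 440]

theorem chk1_36 :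
    runSegmM rts 12000 26000 52000 pk bnds ones 0 (0, 1309) (-1024, 2048) 434 part1_36 = true := by
  decide +kernel

/-- subdivision 1_37 -/
def part1_37 : List ℕ :=
  [441, 444, 446, 447]

theorem chk1_37 :
    runSegmM rts 12000 26000 52000 pk bnds ones 0 (0, 1309) (-1024, 2048) 440 part1_37 = true := by
  decide +kernel

/-- subdivision 1_38 -/
def part1_38 : List ℕ :=
  [449, 450, 453, 456]

theorem chk1_38 :
    runSegmM rts 12000 26000 52000 pk bnds ones 0 (0, 1309) (-1024, 2048) 447 part1_38 = true := by
  decide +kernel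

/-- subdivision 1_39 -/
def part1_39 : List ℕ :=
  [457, 459, 460, 463]

theorem chk1_39 :
    runSegmM rts 12000 26000 52000 pk bnds ones 0 (0, 1309) (-1024, 2048) 456 part1_39 = true := by
  decide +kernel

/-- subdivision 1_40 -/
def part1_40 : List ℕ :=
  [464, 465, 466, 467]

theorem chk1_40 :
    runSegmM rts 12000 26000 52000 pk bnds ones 0 (0, 1309) (-1024, 2048) 463 part1_40 = true := by
  decide +kernel

end Vale.Agent.P021.C3
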