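import Vale.Agent.P021.C3.Dat

set_option maxRecDepth 100000
set_option linter.all false

namespace Vale.Agent.P021.C3

open Vale.Agent.P021.Det Vale.Agent.P021.DetX

/-- subdivision 1_41 -/
def part1_41 : List ℕ :=
  [469, 472, 473, 475]

theorem chk1_41 :
    runSegmM rts 12000 26000 52000 pk bnds ones 0 (0, 1309) (-1024, 2048) 467 part1_41 = true := by
  decide +kernel

/-- subdivision 1_42 -/
def part1_42 : List ℕ :=
  [476, 479, 482, 483]

theorem chk1_42 :
    runSegmM rts 12000 26000 52000 pk bnds ones 0 (0, 1309) (-1024, 2048) 475 part1_42 = true := by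
  decide +kernel

/-- subdivision 1_43 -/
def part1_43 : List ℕ :=
  [485, 486, 489, 490]

theorem chk1_43 :
    runSegmM rts 12000 26000 52000 pk bnds ones 0 (0, 1309) (-1024, 2048) 483 part1_43 = true := by
  decide +kernel

/-- subdivision 1_44 -/
def part1_44 : List ℕ :=
  [491, 492, 493, 495]

theorem chk1_44 :
    runSegmM rts 12000 26000 52000 pk bnds ones 0 (0, 1309) (-1024, 2048) 490 part1_44 = true := by
  decide +kernel

/-- subdivision 1_45 -/
def part1_45 : List ℕ :=
  [498, 499, 500, 501]

theorem chk1_45 :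
    runSegmM rts 12000 26000 52000 pk bnds ones 0 (0, 1309) (-1024, 2048) 495 part1_45 = true := by
  decide +kernel

/-- subdivision 1_46 -/
def part1_46 : List ℕ :=
  [502, 505, 507, 508]

theorem chk1_46 :
    runSegmM rts 12000 26000 52000 pk bnds ones 0 (0, 1309) (-1024, 2048) 501 part1_46 = true := by
  decide +kernel

/-- subdivision 1_47 -/
def part1_47 : List ℕ :=
  [510, 511, 515, 516]

theorem chk1_47 :
    runSegmM rts 12000 26000 52000 pk bnds ones 0 (0, 1309) (-1024, 2048) 508 part1_47 = true := by
  decide +kernel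

/-- subdivision 1_48 -/
def part1_48 : List ℕ :=
  [517, 519, 520, 524]

theorem chk1_48 :
    runSegmM rts 12000 26000 52000 pk bnds ones 0 (0, 1309) (-1024, 2048) 516 part1_48 = true := by
  decide +kernel

/-- subdivision 1_49 -/
def part1_49 : List ℕ :=
  [525, 527, 528, 532]

theorem chk1_49 :
    runSegmM rts 12000 26000 52000 pk bnds ones 0 (0, 1309) (-1024, 2048) 524 part1_49 = true := by
  decide +kernel

/-- subdivision 1_50 -/
def part1_50 : List ℕ :=
  [533, 534, 535, 536]

theorem chk1_50 :
    runSegmM rts 12000 26000 52000 pk bnds ones 0 (0, 1309) (-1024, 2048) 532 part1_50 = true := by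
  decide +kernel

/-- subdivision 1_51 -/
def part1_51 : List ℕ :=
  [538, 541, 542, 543]

theorem chk1_51 :
    runSegmM rts 12000 26000 52000 pk bnds ones 0 (0, 1309) (-1024, 2048) 536 part1_51 = true := by
  decide +kernel

/-- subdivision 1_52 -/
def part1_52 : List ℕ :=
  [544, 545, 548, 549]

theorem chk1_52 :
    runSegmM rts 12000 26000 52000 pk bnds ones 0 (0, 1309) (-1024, 2048) 543 part1_52 = true := by
  decide +kernel

/-- subdivision 1_53 -/
def part1_53 : List ℕ :=
  [550, 551, 552, 553]

theorem chk1_53 :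
    runSegmM rts 12000 26000 52000 pk bnds ones 0 (0, 1309) (-1024, 2048) 549 part1_53 = true := by
  decide +kernel

/-- subdivision 1_54 -/
def part1_54 : List ℕ :=
  [557, 558, 559, 561]

theorem chk1_54 :
    runSegmM rts 12000 26000 52000 pk bnds ones 0 (0, 1309) (-1024, 2048) 553 part1_54 = true := by
  decide +kernel

/-- subdivision 1_55 -/
def part1_55 : List ℕ :=
  [562, 566, 567, 569]

theorem chk1_55 :
    runSegmM rts 12000 26000 52000 pk bnds ones 0 (0, 1309) (-1024, 2048) 561 part1_55 = true := by
  decide +kernel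

/-- subdivision 1_56 -/
def part1_56 : List ℕ :=
  [570, 574, 575, 577]

theorem chk1_56 :
    runSegmM rts 12000 26000 52000 pk bnds ones 0 (0, 1309) (-1024, 2048) 569 part1_56 = true := by
  decide +kernel

/-- subdivision 1_57 -/
def part1_57 : List ℕ :=
  [578, 581, 582, 583]

theorem chk1_57 :
    runSegmM rts 12000 26000 52000 pk bnds ones 0 (0, 1309) (-1024, 2048) 577 part1_57 = true := by
  decide +kernel

/-- subdivision 1_58 -/
def part1_58 : List ℕ :=
  [584, 585, 587, 590]

theorem chk1_58 :
    runSegmM rts 12000 26000 52000 pk bnds ones 0 (0, 1309) (-1024, 2048) 583 part1_58 = true := by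
  decide +kernel

/-- subdivision 1_59 -/
def part1_59 : List ℕ :=
  [591, 592, 593, 594]

theorem chk1_59 :
    runSegmM rts 12000 26000 52000 pk bnds ones 0 (0, 1309) (-1024, 2048) 590 part1_59 = true := by
  decide +kernel

/-- subdivision 1_60 -/
def part1_60 : List ℕ :=
  [597, 598, 599, 600]

theorem chk1_60 :
    runSegmM rts 12000 26000 52000 pk bnds ones 0 (0, 1309) (-1024, 2048) 594 part1_60 = true := by
  decide +kernel

/-- subdivision 1_61 -/
def part1_61 : List ℕ :=
  [601, 602, 606, 607]

theorem chk1_61 :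
    runSegmM rts 12000 26000 52000 pk bnds ones 0 (0, 1309) (-1024, 2048) 600 part1_61 = true := by
  decide +kernel

/-- subdivision 1_62 -/
def part1_62 : List ℕ :=
  [608, 609, 610, 613]

theorem chk1_62 :
    runSegmM rts 12000 26000 52000 pk bnds ones 0 (0, 1309) (-1024, 2048) 607 part1_62 = true := by
  decide +kernel

/-- subdivision 1_63 -/
def part1_63 : List ℕ :=
  [614, 615, 616, 617]

theorem chk1_63 :
    runSegmM rts 12000 26000 52000 pk bnds ones 0 (0, 1309) (-1024, 2048) 613 part1_63 = true := by
  decide +kernel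

/-- subdivision 1_64 -/
def part1_64 : List ℕ :=
  [618, 621, 622, 623]

theorem chk1_64 :
    runSegmM rts 12000 26000 52000 pk bnds ones 0 (0, 1309) (-1024, 2048) 617 part1_64 = true := by
  decide +kernel

/-- subdivision 1_65 -/
def part1_65 : List ℕ :=
  [624, 625, 626, 630]

theorem chk1_65 :
    runSegmM rts 12000 26000 52000 pk bnds ones 0 (0, 1309) (-1024, 2048) 623 part1_65 = true := by
  decide +kernel

/-- subdivision 1_66 -/
def part1_66 : List ℕ :=
  [631, 633, 634, 638]

theorem chk1_66 :
    runSegmM rts 12000 26000 52000 pk bnds ones 0 (0, 1309) (-1024, 2048) 630 part1_66 = true := by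
  decide +kernel

/-- subdivision 1_67 -/
def part1_67 : List ℕ :=
  [639, 641, 642, 646]

theorem chk1_67 :
    runSegmM rts 12000 26000 52000 pk bnds ones 0 (0, 1309) (-1024, 2048) 638 part1_67 = true := by
  decide +kernel

/-- subdivision 1_68 -/
def part1_68 : List ℕ :=
  [647, 649, 650, 653]

theorem chk1_68 :
    runSegmM rts 12000 26000 52000 pk bnds ones 0 (0, 1309) (-1024, 2048) 646 part1_68 = true := by
  decide +kernel

/-- subdivision 1_69 -/
def part1_69 : List ℕ :=
  [654, 655, 656, 657]

theorem chk1_69 :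
    runSegmM rts 12000 26000 52000 pk bnds ones 0 (0, 1309) (-1024, 2048) 653 part1_69 = true := by
  decide +kernel

/-- subdivision 1_70 -/
def part1_70 : List ℕ :=
  [660, 661, 662, 664]

theorem chk1_70 :
    runSegmM rts 12000 26000 52000 pk bnds ones 0 (0, 1309) (-1024, 2048) 657 part1_70 = true := by
  decide +kernel

/-- subdivision 1_71 -/
def part1_71 : List ℕ :=
  [665, 668, 669, 670]

theorem chk1_71 :
    runSegmM rts 12000 26000 52000 pk bnds ones 0 (0, 1309) (-1024, 2048) 664 part1_71 = true := by
  decide +kernel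

/-- subdivision 1_72 -/
def part1_72 : List ℕ :=
  [671, 672, 674, 677]

theorem chk1_72 :
    runSegmM rts 12000 26000 52000 pk bnds ones 0 (0, 1309) (-1024, 2048) 670 part1_72 = true := by
  decide +kernel

/-- subdivision 1_73 -/
def part1_73 : List ℕ :=
  [678, 679, 680, 681]

theorem chk1_73 :
    runSegmM rts 12000 26000 52000 pk bnds ones 0 (0, 1309) (-1024, 2048) 677 part1_73 = true := by
  decide +kernel

end Vale.Agent.P021.C3
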