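import Vale.Agent.P021.C3.Dat

set_option maxRecDepth 100000
set_option linter.all false

namespace Vale.Agent.P021.C3

open Vale.Agent.P021.Det Vale.Agent.P021.DetX

/-- subdivision 1_74 -/
def part1_74 : List ℕ :=
  [684, 685, 686, 687]

theorem chk1_74 :
    runSegmM rts 12000 26000 52000 pk bnds ones 0 (0, 1309) (-1024, 2048) 681 part1_74 = true := by
  decide +kernel

/-- subdivision 1_75 -/
def part1_75 : List ℕ :=
  [689, 692, 693, 694]

theorem chk1_75 :
    runSegmM rts 12000 26000 52000 pk bnds ones 0 (0, 1309) (-1024, 2048) 687 part1_75 = true := by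
  decide +kernel

/-- subdivision 1_76 -/
def part1_76 : List ℕ :=
  [695, 696, 699, 701]

theorem chk1_76 :
    runSegmM rts 12000 26000 52000 pk bnds ones 0 (0, 1309) (-1024, 2048) 694 part1_76 = true := by
  decide +kernel

/-- subdivision 1_77 -/
def part1_77 : List ℕ :=
  [703, 706, 707, 708]

theorem chk1_77 :
    runSegmM rts 12000 26000 52000 pk bnds ones 0 (0, 1309) (-1024, 2048) 701 part1_77 = true := by
  decide +kernel

/-- subdivision 1_78 -/
def part1_78 : List ℕ :=
  [709, 710, 711, 714]

theorem chk1_78 :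
    runSegmM rts 12000 26000 52000 pk bnds ones 0 (0, 1309) (-1024, 2048) 708 part1_78 = true := by
  decide +kernel

/-- subdivision 1_79 -/
def part1_79 : List ℕ :=
  [715, 716, 717, 718]

theorem chk1_79 :
    runSegmM rts 12000 26000 52000 pk bnds ones 0 (0, 1309) (-1024, 2048) 714 part1_79 = true := by
  decide +kernel

/-- subdivision 1_80 -/
def part1_80 : List ℕ :=
  [721, 723, 724, 725]

theorem chk1_80 :
    runSegmM rts 12000 26000 52000 pk bnds ones 0 (0, 1309) (-1024, 2048) 718 part1_80 = true := by
  decide +kernel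

/-- subdivision 1_81 -/
def part1_81 : List ℕ :=
  [726, 729, 730, 731]

theorem chk1_81 :
    runSegmM rts 12000 26000 52000 pk bnds ones 0 (0, 1309) (-1024, 2048) 725 part1_81 = true := by
  decide +kernel

/-- subdivision 1_82 -/
def part1_82 : List ℕ :=
  [732, 733, 736, 738]

theorem chk1_82 :
    runSegmM rts 12000 26000 52000 pk bnds ones 0 (0, 1309) (-1024, 2048) 731 part1_82 = true := by
  decide +kernel

/-- subdivision 1_83 -/
def part1_83 : List ℕ :=
  [740, 742, 745, 747]

theorem chk1_83 :
    runSegmM rts 12000 26000 52000 pk bnds ones 0 (0, 1309) (-1024, 2048) 738 part1_83 = true := by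
  decide +kernel

/-- subdivision 1_84 -/
def part1_84 : List ℕ :=
  [750, 754, 757, 761]

theorem chk1_84 :
    runSegmM rts 12000 26000 52000 pk bnds ones 0 (0, 1309) (-1024, 2048) 747 part1_84 = true := by
  decide +kernel

/-- subdivision 1_85 -/
def part1_85 : List ℕ :=
  [765, 771, 787, 831]

theorem chk1_85 :
    runSegmM rts 12000 26000 52000 pk bnds ones 0 (0, 1309) (-1024, 2048) 761 part1_85 = true := by
  decide +kernel

/-- subdivision 1_86 -/
def part1_86 : List ℕ :=
  [919, 1024]

theorem chk1_86 :
    runSegmM rts 12000 26000 52000 pk bnds ones 0 (0, 1309) (-1024, 2048) 831 part1_86 = true := by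
  decide +kernel

/-- subdivision 2_0 -/
def part2_0 : List ℕ :=
  [2, 6, 10, 12]

theorem chk2_0 :
    runSegmM rts 12000 26000 52000 pk bnds ones 687390851072 (8623, 0) (7243, 6835) 0 part2_0 = true := by
  decide +kernel

/-- subdivision 2_1 -/
def part2_1 : List ℕ :=
  [14, 16, 23, 25]

theorem chk2_1 :
    runSegmM rts 12000 26000 52000 pk bnds ones 687390851072 (8623, 0) (7243, 6835) 12 part2_1 = true := by
  decide +kernel

/-- subdivision 2_2 -/
def part2_2 : List ℕ :=
  [28, 30, 37, 39]

theorem chk2_2 :
    runSegmM rts 12000 26000 52000 pk bnds ones 687390851072 (8623, 0) (7243, 6835) 25 part2_2 = true := by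
  decide +kernel

/-- subdivision 2_3 -/
def part2_3 : List ℕ :=
  [42, 44, 50, 52]

theorem chk2_3 :
    runSegmM rts 12000 26000 52000 pk bnds ones 687390851072 (8623, 0) (7243, 6835) 39 part2_3 = true := by
  decide +kernel

/-- subdivision 2_4 -/
def part2_4 : List ℕ :=
  [54, 57, 59, 66]

theorem chk2_4 :
    runSegmM rts 12000 26000 52000 pk bnds ones 687390851072 (8623, 0) (7243, 6835) 52 part2_4 = true := by
  decide +kernel

/-- subdivision 2_5 -/
def part2_5 : List ℕ :=
  [68, 71, 73, 79]

theorem chk2_5 :
    runSegmM rts 12000 26000 52000 pk bnds ones 687390851072 (8623, 0) (7243, 6835) 66 part2_5 = true := by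
  decide +kernel

/-- subdivision 2_6 -/
def part2_6 : List ℕ :=
  [82, 84, 87, 90]

theorem chk2_6 :
    runSegmM rts 12000 26000 52000 pk bnds ones 687390851072 (8623, 0) (7243, 6835) 79 part2_6 = true := by
  decide +kernel

/-- subdivision 2_7 -/
def part2_7 : List ℕ :=
  [96, 99, 102, 105]

theorem chk2_7 :
    runSegmM rts 12000 26000 52000 pk bnds ones 687390851072 (8623, 0) (7243, 6835) 90 part2_7 = true := by
  decide +kernel

/-- subdivision 2_8 -/
def part2_8 : List ℕ :=
  [111, 114, 117, 119]

theorem chk2_8 :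
    runSegmM rts 12000 26000 52000 pk bnds ones 687390851072 (8623, 0) (7243, 6835) 105 part2_8 = true := by
  decide +kernel

/-- subdivision 2_9 -/
def part2_9 : List ℕ :=
  [125, 128, 131, 134]

theorem chk2_9 :
    runSegmM rts 12000 26000 52000 pk bnds ones 687390851072 (8623, 0) (7243, 6835) 119 part2_9 = true := by
  decide +kernel

/-- subdivision 2_10 -/
def part2_10 : List ℕ :=
  [140, 143, 146, 149]

theorem chk2_10 :
    runSegmM rts 12000 26000 52000 pk bnds ones 687390851072 (8623, 0) (7243, 6835) 134 part2_10 = true := by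
  decide +kernel

/-- subdivision 2_11 -/
def part2_11 : List ℕ :=
  [152, 158, 161, 164]

theorem chk2_11 :
    runSegmM rts 12000 26000 52000 pk bnds ones 687390851072 (8623, 0) (7243, 6835) 149 part2_11 = true := by
  decide +kernel

/-- subdivision 2_12 -/
def part2_12 : List ℕ :=
  [168, 174, 178, 181]

theorem chk2_12 :
    runSegmM rts 12000 26000 52000 pk bnds ones 687390851072 (8623, 0) (7243, 6835) 164 part2_12 = true := by
  decide +kernel

/-- subdivision 2_13 -/
def part2_13 : List ℕ :=
  [188, 193, 199, 209]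

theorem chk2_13 :
    runSegmM rts 12000 26000 52000 pk bnds ones 687390851072 (8623, 0) (7243, 6835) 181 part2_13 = true := by
  decide +kernel

/-- subdivision 2_14 -/
def part2_14 : List ℕ :=
  [216, 224, 233, 246]

theorem chk2_14 :
    runSegmM rts 12000 26000 52000 pk bnds ones 687390851072 (8623, 0) (7243, 6835) 209 part2_14 = true := by
  decide +kernel

/-- subdivision 2_15 -/
def part2_15 : List ℕ :=
  [281, 381, 616, 1024]

theorem chk2_15 :
    runSegmM rts 12000 26000 52000 pk bnds ones 687390851072 (8623, 0) (7243, 6835) 246 part2_15 = true := by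
  decide +kernel

/-- subdivision 3_0 -/
def part3_0 : List ℕ :=
  [719, 1024]

theorem chk3_0 :
    runSegmM rts 12000 26000 52000 pk bnds ones 687390851072 (7243, 6835) (3072, 4608) 0 part3_0 = true := by
  decide +kernel

/-- subdivision 4_0 -/
def part4_0 : List ℕ :=
  [816, 1024]

theorem chk4_0 :
    runSegmM rts 12000 26000 52000 pk bnds ones 687390851072 (3072, 4608) (-2560, 0) 0 part4_0 = true := by
  decide +kernel

end Vale.Agent.P021.C3
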