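import Vale.Agent.P021.C3.Chk1
import Vale.Agent.P021.C3.Chk2
import Vale.Agent.P021.C3.Chk3
import Vale.Agent.P021.C3.Chk4

set_option maxRecDepth 100000
set_option linter.all false

namespace Vale.Agent.P021.C3

open Vale.Agent.P021.Det Vale.Agent.P021.DetX

/-- subdivision 0 -/
def part0 : List ℕ :=
  part0_0 ++ (part0_1 ++ (part0_2 ++ (part0_3 ++ (part0_4 ++ (part0_5 ++ (part0_6 ++ (part0_7 ++
  (part0_8 ++ (part0_9 ++ (part0_10 ++ (part0_11 ++ (part0_12 ++ (part0_13 ++ (part0_14 ++
  (part0_15 ++ (part0_16 ++ (part0_17 ++ (part0_18 ++ (part0_19 ++ (part0_20 ++ (part0_21 ++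
  (part0_22 ++ (part0_23 ++ part0_24)))))))))))))))))))))))

theorem chk0 : runSegmM rts 12000 26000 52000 pk bnds ones 0 (0, 0) (0, 1309) 0 part0 = true :=
  runSegmM_app chk0_0 (by decide) (runSegmM_app chk0_1 (by decide) (runSegmM_app chk0_2 (by
  decide) (runSegmM_app chk0_3 (by decide) (runSegmM_app chk0_4 (by decide) (runSegmM_app chk0_5
  (by decide) (runSegmM_app chk0_6 (by decide) (runSegmM_app chk0_7 (by decide) (runSegmM_app
  chk0_8 (by decide) (runSegmM_app chk0_9 (by decide) (runSegmM_app chk0_10 (by decide)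
  (runSegmM_app chk0_11 (by decide) (runSegmM_app chk0_12 (by decide) (runSegmM_app chk0_13 (by
  decide) (runSegmM_app chk0_14 (by decide) (runSegmM_app chk0_15 (by decide) (runSegmM_app
  chk0_16 (by decide) (runSegmM_app chk0_17 (by decide) (runSegmM_app chk0_18 (by decide)
  (runSegmM_app chk0_19 (by decide) (runSegmM_app chk0_20 (by decide) (runSegmM_app chk0_21 (by
  decide) (runSegmM_app chk0_22 (by decide) (runSegmM_app chk0_23 (by decide)
  (chk0_24))))))))))))))))))))))))

/-- subdivision 1 -/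
def part1 : List ℕ :=
  part1_0 ++ (part1_1 ++ (part1_2 ++ (part1_3 ++ (part1_4 ++ (part1_5 ++ (part1_6 ++ (part1_7 ++
  (part1_8 ++ (part1_9 ++ (part1_10 ++ (part1_11 ++ (part1_12 ++ (part1_13 ++ (part1_14 ++
  (part1_15 ++ (part1_16 ++ (part1_17 ++ (part1_18 ++ (part1_19 ++ (part1_20 ++ (part1_21 ++
  (part1_22 ++ (part1_23 ++ (part1_24 ++ (part1_25 ++ (part1_26 ++ (part1_27 ++ (part1_28 ++
  (part1_29 ++ (part1_30 ++ (part1_31 ++ (part1_32 ++ (part1_33 ++ (part1_34 ++ (part1_35 ++
  (part1_36 ++ (part1_37 ++ (part1_38 ++ (part1_39 ++ (part1_40 ++ (part1_41 ++ (part1_42 ++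
  (part1_43 ++ (part1_44 ++ (part1_45 ++ (part1_46 ++ (part1_47 ++ (part1_48 ++ (part1_49 ++
  (part1_50 ++ (part1_51 ++ (part1_52 ++ (part1_53 ++ (part1_54 ++ (part1_55 ++ (part1_56 ++
  (part1_57 ++ (part1_58 ++ (part1_59 ++ (part1_60 ++ (part1_61 ++ (part1_62 ++ (part1_63 ++
  (part1_64 ++ (part1_65 ++ (part1_66 ++ (part1_67 ++ (part1_68 ++ (part1_69 ++ (part1_70 ++
  (part1_71 ++ (part1_72 ++ (part1_73 ++ (part1_74 ++ (part1_75 ++ (part1_76 ++ (part1_77 ++
  (part1_78 ++ (part1_79 ++ (part1_80 ++ (part1_81 ++ (part1_82 ++ (part1_83 ++ (part1_84 ++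
  (part1_85 ++
  part1_86)))))))))))))))))))))))))))))))))))))))))))))))))))))))))))))))))))))))))))))))))))))

theorem chk1 : runSegmM rts 12000 26000 52000 pk bnds ones 0 (0, 1309) (-1024, 2048) 0 part1 = true :=
  runSegmM_app chk1_0 (by decide) (runSegmM_app chk1_1 (by decide) (runSegmM_app chk1_2 (by
  decide) (runSegmM_app chk1_3 (by decide) (runSegmM_app chk1_4 (by decide) (runSegmM_app chk1_5
  (by decide) (runSegmM_app chk1_6 (by decide) (runSegmM_app chk1_7 (by decide) (runSegmM_app
  chk1_8 (by decide) (runSegmM_app chk1_9 (by decide) (runSegmM_app chk1_10 (by decide)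
  (runSegmM_app chk1_11 (by decide) (runSegmM_app chk1_12 (by decide) (runSegmM_app chk1_13 (by
  decide) (runSegmM_app chk1_14 (by decide) (runSegmM_app chk1_15 (by decide) (runSegmM_app
  chk1_16 (by decide) (runSegmM_app chk1_17 (by decide) (runSegmM_app chk1_18 (by decide)
  (runSegmM_app chk1_19 (by decide) (runSegmM_app chk1_20 (by decide) (runSegmM_app chk1_21 (by
  decide) (runSegmM_app chk1_22 (by decide) (runSegmM_app chk1_23 (by decide) (runSegmM_app
  chk1_24 (by decide) (runSegmM_app chk1_25 (by decide) (runSegmM_app chk1_26 (by decide)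
  (runSegmM_app chk1_27 (by decide) (runSegmM_app chk1_28 (by decide) (runSegmM_app chk1_29 (by
  decide) (runSegmM_app chk1_30 (by decide) (runSegmM_app chk1_31 (by decide) (runSegmM_app
  chk1_32 (by decide) (runSegmM_app chk1_33 (by decide) (runSegmM_app chk1_34 (by decide)
  (runSegmM_app chk1_35 (by decide) (runSegmM_app chk1_36 (by decide) (runSegmM_app chk1_37 (by
  decide) (runSegmM_app chk1_38 (by decide) (runSegmM_app chk1_39 (by decide) (runSegmM_app
  chk1_40 (by decide) (runSegmM_app chk1_41 (by decide) (runSegmM_app chk1_42 (by decide)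
  (runSegmM_app chk1_43 (by decide) (runSegmM_app chk1_44 (by decide) (runSegmM_app chk1_45 (by
  decide) (runSegmM_app chk1_46 (by decide) (runSegmM_app chk1_47 (by decide) (runSegmM_app
  chk1_48 (by decide) (runSegmM_app chk1_49 (by decide) (runSegmM_app chk1_50 (by decide)
  (runSegmM_app chk1_51 (by decide) (runSegmM_app chk1_52 (by decide) (runSegmM_app chk1_53 (by
  decide) (runSegmM_app chk1_54 (by decide) (runSegmM_app chk1_55 (by decide) (runSegmM_app
  chk1_56 (by decide) (runSegmM_app chk1_57 (by decide) (runSegmM_app chk1_58 (by decide)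
  (runSegmM_app chk1_59 (by decide) (runSegmM_app chk1_60 (by decide) (runSegmM_app chk1_61 (by
  decide) (runSegmM_app chk1_62 (by decide) (runSegmM_app chk1_63 (by decide) (runSegmM_app
  chk1_64 (by decide) (runSegmM_app chk1_65 (by decide) (runSegmM_app chk1_66 (by decide)
  (runSegmM_app chk1_67 (by decide) (runSegmM_app chk1_68 (by decide) (runSegmM_app chk1_69 (by
  decide) (runSegmM_app chk1_70 (by decide) (runSegmM_app chk1_71 (by decide) (runSegmM_app
  chk1_72 (by decide) (runSegmM_app chk1_73 (by decide) (runSegmM_app chk1_74 (by decide)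
  (runSegmM_app chk1_75 (by decide) (runSegmM_app chk1_76 (by decide) (runSegmM_app chk1_77 (by
  decide) (runSegmM_app chk1_78 (by decide) (runSegmM_app chk1_79 (by decide) (runSegmM_app
  chk1_80 (by decide) (runSegmM_app chk1_81 (by decide) (runSegmM_app chk1_82 (by decide)
  (runSegmM_app chk1_83 (by decide) (runSegmM_app chk1_84 (by decide) (runSegmM_app chk1_85 (by
  decide)
  (chk1_86))))))))))))))))))))))))))))))))))))))))))))))))))))))))))))))))))))))))))))))))))))))

/-- subdivision 2 -/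
def part2 : List ℕ :=
  part2_0 ++ (part2_1 ++ (part2_2 ++ (part2_3 ++ (part2_4 ++ (part2_5 ++ (part2_6 ++ (part2_7 ++
  (part2_8 ++ (part2_9 ++ (part2_10 ++ (part2_11 ++ (part2_12 ++ (part2_13 ++ (part2_14 ++
  part2_15))))))))))))))

theorem chk2 : runSegmM rts 12000 26000 52000 pk bnds ones 687390851072 (8623, 0) (7243, 6835) 0 part2 = true :=
  runSegmM_app chk2_0 (by decide) (runSegmM_app chk2_1 (by decide) (runSegmM_app chk2_2 (by
  decide) (runSegmM_app chk2_3 (by decide) (runSegmM_app chk2_4 (by decide) (runSegmM_app chk2_5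
  (by decide) (runSegmM_app chk2_6 (by decide) (runSegmM_app chk2_7 (by decide) (runSegmM_app
  chk2_8 (by decide) (runSegmM_app chk2_9 (by decide) (runSegmM_app chk2_10 (by decide)
  (runSegmM_app chk2_11 (by decide) (runSegmM_app chk2_12 (by decide) (runSegmM_app chk2_13 (by
  decide) (runSegmM_app chk2_14 (by decide) (chk2_15)))))))))))))))

/-- subdivision 3 -/
def part3 : List ℕ :=
  part3_0

theorem chk3 : runSegmM rts 12000 26000 52000 pk bnds ones 687390851072 (7243, 6835) (3072, 4608) 0 part3 = true :=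
  chk3_0

/-- subdivision 4 -/
def part4 : List ℕ :=
  part4_0

theorem chk4 : runSegmM rts 12000 26000 52000 pk bnds ones 687390851072 (3072, 4608) (-2560, 0) 0 part4 = true :=
  chk4_0

end Vale.Agent.P021.C3
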