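import Vale.Agent.P021.Bdl.B3

/-!
# The chord checker of `Vale.Agent.P021.Det` with a finer logarithm

Logarithms of products of squared distances are computed with precision `2^(-15)` (instead of
`2^(-11)`).
-/

set_option linter.all false

open Polynomial

namespace Vale.Agent.P021.DetX

open Vale.Agent.P021.Det

/-- an entry of the table: `(G, t, t')` with `P ≤ 2^(G/32768)`, and the two chord values. -/
def okN (u v : ℤ × ℤ) (l : List (ℤ × ℤ)) (n : ℤ) (e : ℕ × ℤ × ℤ) : Bool :=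
  goN u v (fun P s t => and (Nat.ble (Nat.pow P 32768) (Nat.pow 2 e.1))
    (and (zle (Int.add (32 * (e.1 : ℤ) - n) s) e.2.1)
      (zle (Int.add (32 * (e.1 : ℤ) - n) t) e.2.2))) l 1 0 0

/-- an entry of the table for the denominator: `2^(G/32768) ≤ P` -/
def okD (u v : ℤ × ℤ) (l : List (ℤ × ℤ)) (n : ℤ) (e : ℕ × ℤ × ℤ) : Bool :=
  frc (cA u v) fun A => goD u v A (fun P s t => and (Nat.ble (Nat.pow 2 e.1) (Nat.pow P 32768))
    (and (zle (Int.add (n - 32 * (e.1 : ℤ)) s) e.2.1)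
      (zle (Int.add (n - 32 * (e.1 : ℤ)) t) e.2.2))) l 1 0 0

/-- check a list of factors against a list of entries -/
def okL (u v : ℤ × ℤ) : List Fac → List (ℕ × ℤ × ℤ) → Bool
  | [], _ => true
  | _ :: _, [] => false
  | f :: fs, e :: es =>
    and (okN u v f.roots (44040192 * (f.roots.length : ℤ)) e) (okL u v fs es)

/-- check of one subsegment: `fs` the factors, `a,b,m` half exponents of `u`, `Q`, `τ`,
`lev` the list of levels (exponents and bound in units `2^20`) -/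
def okSub (fs : List Fac) (a b m : ℕ) (lev : List (List ℕ × ℤ)) (ex : ℤ) (u v : ℤ × ℤ) (S : Sub) :
    Bool :=
  and (okL u v fs S.T) <| and (okN u v (Fac.roots (.re 0)) 88080384 S.tU) <|
  and (okN u v (Fac.roots (.quad 1024 2048)) 176160768 S.tQ) <|
  and (okD u v (Fac.roots (.re 5120)) 88080384 S.tT) <|
  frcZ ((a : ℤ) * S.tU.2.1 + (b : ℤ) * S.tQ.2.1 + (m : ℤ) * S.tT.2.1 - ex) fun c1 =>
  frcZ ((a : ℤ) * S.tU.2.2 + (b : ℤ) * S.tQ.2.2 + (m : ℤ) * S.tT.2.2 - ex) fun c2 =>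
  okLev S.T c1 c2 lev

/-- check of the segment `[U,V]` with subdivision points `i/1024` -/
def okSegm (fs : List Fac) (a b m : ℕ) (lev : List (List ℕ × ℤ)) (ex : ℤ) (U V : ℤ × ℤ) :
    ℕ → List (ℕ × Sub) → Bool
  | _, [] => true
  | i, (j, S) :: l =>
    and (okSub fs a b m lev ex (cpt U V i) (cpt U V j) S) (okSegm fs a b m lev ex U V j l)

theorem ChN_root {P G : ℕ} (h : Nat.pow P 32768 ≤ Nat.pow 2 G) :
    (P : ℝ) ≤ Real.exp (32 * (G : ℝ) * ChD_lam) :=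
  ChN_root' (by omega) (by norm_num) (Nat.cast_nonneg _) (ChN_pow' h)

/-- numerator factors -/
theorem okN_spec {u v : ℤ × ℤ} {f : Fac} {e : ℕ × ℤ × ℤ}
    (h : okN u v f.roots (44040192 * (f.roots.length : ℤ)) e = true) {t : ℝ} (h0 : 0 ≤ t)
    (h1 : t ≤ 1) :
    ‖ev (f.poly 10) ((1 - (t : ℂ)) * pnt u + (t : ℂ) * pnt v)‖ ^ 2 ≤
      Real.exp (((1 - t) * (e.2.1 : ℝ) + t * (e.2.2 : ℝ)) * (Real.log 2 / 2 ^ 20)) := by
  obtain ⟨G, E1, E2⟩ := e
  unfold okN at h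
  obtain ⟨P, z, z', hk, hle⟩ := ChN_go _ h0 h1 _ _ _ _ h
  rw [Bool.and_eq_true, Bool.and_eq_true] at hk
  obtain ⟨hP, hz1, hz2⟩ := hk
  have hP' := ChN_root (Nat.le_of_ble_eq_true hP)
  simp only [zle, decide_eq_true_eq] at hz1 hz2
  rw [ChN_prod, ChN_scale] at hle
  rw [Int.cast_zero, mul_zero, mul_zero, add_zero, zero_mul, Real.exp_zero, mul_one, Nat.cast_one,
    one_mul] at hle
  set n : ℕ := f.roots.length with hn
  have hz1' : (32 : ℝ) * G - 44040192 * n + z ≤ E1 := by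
    have e7 := (Int.cast_le (R := ℝ)).2 hz1
    rw [ChN_add] at e7
    push_cast at e7
    exact e7
  have hz2' : (32 : ℝ) * G - 44040192 * n + z' ≤ E2 := by
    have e7 := (Int.cast_le (R := ℝ)).2 hz2
    rw [ChN_add] at e7
    push_cast at e7
    exact e7
  change _ ≤ Real.exp (((1 - t) * (E1 : ℝ) + t * (E2 : ℝ)) * ChD_lam)
  set N : ℝ := ‖ev (f.poly 10) ((1 - (t : ℂ)) * pnt u + (t : ℂ) * pnt v)‖ ^ 2 with hN
  have h2 : Real.exp (44040192 * (n : ℝ) * ChD_lam) * N ≤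
      Real.exp (32 * (G : ℝ) * ChD_lam) *
        Real.exp (((1 - t) * (z : ℝ) + t * (z' : ℝ)) * ChD_lam) :=
    hle.trans (mul_le_mul_of_nonneg_right hP' (Real.exp_pos _).le)
  have h3 := mul_le_mul_of_nonneg_left h2 (Real.exp_pos (-(44040192 * (n : ℝ) * ChD_lam))).le
  rw [← mul_assoc, ← Real.exp_add, neg_add_cancel, Real.exp_zero, one_mul, ← Real.exp_add,
    ← Real.exp_add] at h3
  refine h3.trans (Real.exp_le_exp.2 ?_)
  have g1 := mul_le_mul_of_nonneg_left hz1' (sub_nonneg.2 h1)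
  have g2 := mul_le_mul_of_nonneg_left hz2' h0
  have g3 : (32 : ℝ) * G - 44040192 * n + ((1 - t) * (z : ℝ) + t * (z' : ℝ)) ≤
      (1 - t) * (E1 : ℝ) + t * (E2 : ℝ) := by
    linarith only [g1, g2]
  have g4 := mul_le_mul_of_nonneg_right g3 ChD_lam_pos.le
  linarith only [g4]

theorem ChD_root {a b G : ℕ} (ha : 1 ≤ a) (hb : 1 ≤ b)
    (h : Nat.pow 2 G ≤ Nat.pow (Nat.mul (Nat.mul 1 a) b) 32768) :
    Real.exp (32 * (G : ℝ) * ChD_lam) ≤ (a : ℝ) * b := by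
  have hp0 : (0 : ℝ) < (a : ℝ) * b := by
    have e1 : (0 : ℝ) < a := by exact_mod_cast ha
    have e2 : (0 : ℝ) < b := by exact_mod_cast hb
    positivity
  exact ChD_root' (by omega) (by norm_num) hp0 (ChD_pow' h)

/-- the denominator `τ` -/
theorem okD_spec {u v : ℤ × ℤ} {e : ℕ × ℤ × ℤ}
    (h : okD u v (Fac.roots (.re 5120)) 88080384 e = true) {t : ℝ} (h0 : 0 ≤ t) (h1 : t ≤ 1) :
    1 ≤ Real.exp (((1 - t) * (e.2.1 : ℝ) + t * (e.2.2 : ℝ)) * (Real.log 2 / 2 ^ 20)) *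
      ‖tau ((1 - (t : ℂ)) * pnt u + (t : ℂ) * pnt v)‖ ^ 2 := by
  obtain ⟨G, E1, E2⟩ := e
  simp only [okD, Fac.roots, goD, ChD_frc, ChD_frcZ, Bool.and_eq_true] at h
  obtain ⟨⟨ha1, hb1, hc1⟩, ⟨ha2, hb2, hc2⟩, hP, hz1, hz2⟩ := h
  have ha1' := Nat.le_of_ble_eq_true ha1
  have hb1' := Nat.le_of_ble_eq_true hb1
  have ha2' := Nat.le_of_ble_eq_true ha2
  have hb2' := Nat.le_of_ble_eq_true hb2
  have hc1' := Nat.le_of_ble_eq_true hc1
  have hc2' := Nat.le_of_ble_eq_true hc2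
  have hP' := Nat.le_of_ble_eq_true hP
  simp only [zle, decide_eq_true_eq] at hz1 hz2
  set c1 : ℕ := cqm u v (5120, 0) with hc1d
  set c2 : ℕ := cqm u v (-5120, 0) with hc2d
  set a1 : ℕ := Nat.sub (cqe u (5120, 0)) (cA u v) with ha1d
  set b1 : ℕ := Nat.sub (cqe v (5120, 0)) (cA u v) with hb1d
  set a2 : ℕ := Nat.sub (cqe u (-5120, 0)) (cA u v) with ha2d
  set b2 : ℕ := Nat.sub (cqe v (-5120, 0)) (cA u v) with hb2d
  have k1 := ChD_one (x1 := (u.1 : ℝ)) (x2 := (u.2 : ℝ)) (y1 := (v.1 : ℝ)) (y2 := (v.2 : ℝ))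
    (r := 2048 * ((5120 : ℤ) : ℝ)) (t := t) (c := c1) ha1' hb1' h0 h1
    (ChD_cqe u 5120) (ChD_cqe v 5120) (ChD_cA u v) (ChD_sub ha1') (ChD_sub hb1')
  have k2 := ChD_one (x1 := (u.1 : ℝ)) (x2 := (u.2 : ℝ)) (y1 := (v.1 : ℝ)) (y2 := (v.2 : ℝ))
    (r := 2048 * ((-5120 : ℤ) : ℝ)) (t := t) (c := c2) ha2' hb2' h0 h1
    (ChD_cqe u (-5120)) (ChD_cqe v (-5120)) (ChD_cA u v) (ChD_sub ha2') (ChD_sub hb2')
  have hT := ChD_tau u v t
  push_cast at k1 k2
  have hprod : ((c1 : ℝ) * c2) ≤ 2 ^ 84 * ‖tau ((1 - (t : ℂ)) * pnt u + (t : ℂ) * pnt v)‖ ^ 2 *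
      Real.exp ((((1 - t) * (cC c1 a1 : ℝ) + t * (cC c1 b1 : ℝ)) +
        ((1 - t) * (cC c2 a2 : ℝ) + t * (cC c2 b2 : ℝ))) * ChD_lam) := by
    rw [hT, show ∀ A B : ℝ, Real.exp ((A + B) * ChD_lam) = Real.exp (A * ChD_lam) *
      Real.exp (B * ChD_lam) from fun A B => by rw [add_mul, Real.exp_add]]
    calc (c1 : ℝ) * c2 ≤ _ := mul_le_mul k1 k2 (Nat.cast_nonneg _) ((Nat.cast_nonneg _).trans k1)
      _ = _ := by ring
  have hexpn : (2 : ℝ) ^ 84 = Real.exp (88080384 * ChD_lam) := by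
    have : (88080384 : ℝ) * ChD_lam = (84 : ℕ) * Real.log 2 := by
      rw [← ChD_lam_mul]; push_cast; ring
    rw [this, Real.exp_nat_mul, Real.exp_log (by norm_num)]
  have hPG : Real.exp (32 * (G : ℝ) * ChD_lam) ≤ (c1 : ℝ) * c2 := by
    exact ChD_root hc1' hc2' hP'
  have hz1' : (88080384 : ℝ) - 32 * G + ((cC c1 a1 : ℝ) + (cC c2 a2 : ℝ)) ≤ (E1 : ℝ) := by
    have e7 := ChD_ia hz1
    push_cast at e7
    exact e7
  have hz2' : (88080384 : ℝ) - 32 * G + ((cC c1 b1 : ℝ) + (cC c2 b2 : ℝ)) ≤ (E2 : ℝ) := by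
    have e7 := ChD_ia hz2
    push_cast at e7
    exact e7
  change 1 ≤ Real.exp (((1 - t) * (E1 : ℝ) + t * (E2 : ℝ)) * ChD_lam) * _
  have hfin : Real.exp (32 * (G : ℝ) * ChD_lam) ≤ Real.exp (88080384 * ChD_lam) *
      ‖tau ((1 - (t : ℂ)) * pnt u + (t : ℂ) * pnt v)‖ ^ 2 *
      Real.exp ((((1 - t) * (cC c1 a1 : ℝ) + t * (cC c1 b1 : ℝ)) +
        ((1 - t) * (cC c2 a2 : ℝ) + t * (cC c2 b2 : ℝ))) * ChD_lam) := by
    rw [← hexpn]
    exact hPG.trans hprod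
  have hmul := mul_le_mul_of_nonneg_left hfin (Real.exp_pos (-(32 * (G : ℝ) * ChD_lam))).le
  rw [← Real.exp_add, neg_add_cancel, Real.exp_zero] at hmul
  refine hmul.trans ?_
  have e8 : Real.exp (-(32 * (G : ℝ) * ChD_lam)) * (Real.exp (88080384 * ChD_lam) *
      ‖tau ((1 - (t : ℂ)) * pnt u + (t : ℂ) * pnt v)‖ ^ 2 *
      Real.exp ((((1 - t) * (cC c1 a1 : ℝ) + t * (cC c1 b1 : ℝ)) +
        ((1 - t) * (cC c2 a2 : ℝ) + t * (cC c2 b2 : ℝ))) * ChD_lam)) =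
      (Real.exp (-(32 * (G : ℝ) * ChD_lam)) * Real.exp (88080384 * ChD_lam) *
      Real.exp ((((1 - t) * (cC c1 a1 : ℝ) + t * (cC c1 b1 : ℝ)) +
        ((1 - t) * (cC c2 a2 : ℝ) + t * (cC c2 b2 : ℝ))) * ChD_lam)) *
      ‖tau ((1 - (t : ℂ)) * pnt u + (t : ℂ) * pnt v)‖ ^ 2 := by ring
  rw [e8]
  apply mul_le_mul_of_nonneg_right _ (by positivity)
  rw [← Real.exp_add, ← Real.exp_add]
  apply Real.exp_le_exp.2
  have g1 := mul_le_mul_of_nonneg_left hz1' (sub_nonneg.2 h1)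
  have g2 := mul_le_mul_of_nonneg_left hz2' h0
  have g3 : (88080384 : ℝ) - 32 * G + (((1 - t) * (cC c1 a1 : ℝ) + t * (cC c1 b1 : ℝ)) +
      ((1 - t) * (cC c2 a2 : ℝ) + t * (cC c2 b2 : ℝ))) ≤ (1 - t) * (E1 : ℝ) + t * (E2 : ℝ) := by
    linarith only [g1, g2]
  have g4 := mul_le_mul_of_nonneg_right g3 ChD_lam_pos.le
  linarith only [g4]

theorem okL_spec {u v : ℤ × ℤ} {t : ℝ} (h0 : 0 ≤ t) (h1 : t ≤ 1) (fs : List Fac) :
    ∀ (T : List (ℕ × ℤ × ℤ)) (es : List ℕ), okL u v fs T = true → es.length ≤ fs.length →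
    ‖ev (prodF fs es) ((1 - (t : ℂ)) * pnt u + (t : ℂ) * pnt v)‖ ^ 2 ≤
      Real.exp (((1 - t) * (dot1 es T 0 : ℝ) + t * (dot2 es T 0 : ℝ)) * cu) := by
  induction fs with
  | nil =>
    intro T es _ hl
    have : es = [] := by
      cases es with
      | nil => rfl
      | cons e es => simp at hl
    subst this
    cases T <;> simp [prodF, dot1, dot2, ev]
  | cons f fs ih =>
    intro T es hT hl
    cases es with
    | nil => cases T <;> simp [prodF, dot1, dot2, ev]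
    | cons e es =>
      cases T with
      | nil => simp [okL] at hT
      | cons a T =>
        simp only [okL, Bool.and_eq_true] at hT
        obtain ⟨hN, hT⟩ := hT
        have hf := okN_spec hN h0 h1
        have hr := ih T es hT (by simpa using hl)
        rw [dot1_cons, dot2_cons]
        simp only [prodF]
        rw [ev_mul, ev_pow, norm_mul, norm_pow, mul_pow, ← pow_mul, mul_comm e 2, pow_mul]
        have e1 : ((1 - t) * ((((e : ℤ) * a.2.1 + dot1 es T 0 : ℤ)) : ℝ) +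
            t * ((((e : ℤ) * a.2.2 + dot2 es T 0 : ℤ)) : ℝ)) * cu =
            (e : ℝ) * (((1 - t) * (a.2.1 : ℝ) + t * (a.2.2 : ℝ)) * (Real.log 2 / 2 ^ 20)) +
            ((1 - t) * (dot1 es T 0 : ℝ) + t * (dot2 es T 0 : ℝ)) * cu := by
          unfold cu
          push_cast
          ring
        rw [e1, Real.exp_add, Real.exp_nat_mul]
        exact mul_le_mul (pow_le_pow_left₀ (by positivity) hf e) hr (by positivity)
          (by positivity)

theorem okSub_spec {fs : List Fac} {a b m : ℕ} {lev : List (List ℕ × ℤ)} {ex : ℤ} {u v : ℤ × ℤ}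
    {S : Sub} (h : okSub fs a b m lev ex u v S = true) {t : ℝ} (h0 : 0 ≤ t) (h1 : t ≤ 1)
    (L : List ℕ × ℤ) (hL : L ∈ lev) (hlen : L.1.length ≤ fs.length) :
    ‖ev (prodF fs L.1) ((1 - (t : ℂ)) * pnt u + (t : ℂ) * pnt v)‖ ^ 2 *
      ‖ev (Wp (2 * a) (2 * b)) ((1 - (t : ℂ)) * pnt u + (t : ℂ) * pnt v)‖ ≤
      Real.exp (((L.2 : ℝ) + ex) * cu) *
        ‖tau ((1 - (t : ℂ)) * pnt u + (t : ℂ) * pnt v)‖ ^ (2 * m) := by
  unfold okSub at h
  simp only [frcZ_eq, Bool.and_eq_true] at h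
  obtain ⟨hT, hU, hQ, hD, hlev⟩ := h
  set s : ℂ := (1 - (t : ℂ)) * pnt u + (t : ℂ) * pnt v with hs
  have gT := okL_spec h0 h1 fs S.T L.1 hT hlen
  have gU := okN_spec (f := .re 0) (by simpa [Fac.roots] using hU) h0 h1
  have gQ := okN_spec (f := .quad 1024 2048) (by simpa [Fac.roots] using hQ) h0 h1
  have gD := okD_spec hD h0 h1
  rw [← hs] at gT gU gQ gD
  rw [Fac_re0] at gU
  rw [Fac_quadE] at gQ
  obtain ⟨l1, l2⟩ := okLev_spec hlev L hL
  rw [dot1_add] at l1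
  rw [dot2_add] at l2
  have hW : ‖ev (Wp (2 * a) (2 * b)) s‖ =
      (‖ev (X + C 25) s‖ ^ 2) ^ a * (‖ev (X ^ 2 + C 56 * X + C 800) s‖ ^ 2) ^ b := by
    unfold Wp
    rw [ev_mul, ev_pow, ev_pow, norm_mul, norm_pow, norm_pow, pow_mul, pow_mul]
  rw [hW]
  have l1' : ((dot1 L.1 S.T 0 : ℤ) : ℝ) + (a * (S.tU.2.1 : ℝ) + b * (S.tQ.2.1 : ℝ) +
      m * (S.tT.2.1 : ℝ)) ≤ L.2 + ex := by
    have := (Int.cast_le (R := ℝ)).mpr l1
    push_cast at this
    linarith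
  have l2' : ((dot2 L.1 S.T 0 : ℤ) : ℝ) + (a * (S.tU.2.2 : ℝ) + b * (S.tQ.2.2 : ℝ) +
      m * (S.tT.2.2 : ℝ)) ≤ L.2 + ex := by
    have := (Int.cast_le (R := ℝ)).mpr l2
    push_cast at this
    linarith
  have hD' : 1 ≤ Real.exp ((m : ℝ) * (((1 - t) * (S.tT.2.1 : ℝ) + t * (S.tT.2.2 : ℝ)) *
      (Real.log 2 / 2 ^ 20))) * ‖tau s‖ ^ (2 * m) := by
    rw [Real.exp_nat_mul, pow_mul, ← mul_pow]
    exact one_le_pow₀ gD
  calc ‖ev (prodF fs L.1) s‖ ^ 2 * ((‖ev (X + C 25) s‖ ^ 2) ^ a *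
        (‖ev (X ^ 2 + C 56 * X + C 800) s‖ ^ 2) ^ b)
      ≤ Real.exp (((1 - t) * (dot1 L.1 S.T 0 : ℝ) + t * (dot2 L.1 S.T 0 : ℝ)) * cu) *
        (Real.exp (((1 - t) * (S.tU.2.1 : ℝ) + t * (S.tU.2.2 : ℝ)) * (Real.log 2 / 2 ^ 20)) ^ a *
        Real.exp (((1 - t) * (S.tQ.2.1 : ℝ) + t * (S.tQ.2.2 : ℝ)) *
          (Real.log 2 / 2 ^ 20)) ^ b) := by
        gcongr
    _ = Real.exp ((((1 - t) * (dot1 L.1 S.T 0 : ℝ) + t * (dot2 L.1 S.T 0 : ℝ)) +
          a * ((1 - t) * (S.tU.2.1 : ℝ) + t * (S.tU.2.2 : ℝ)) +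
          b * ((1 - t) * (S.tQ.2.1 : ℝ) + t * (S.tQ.2.2 : ℝ))) * cu) * 1 := by
        rw [← Real.exp_nat_mul, ← Real.exp_nat_mul, ← Real.exp_add, ← Real.exp_add, mul_one]
        congr 1
        unfold cu
        ring
    _ ≤ Real.exp ((((1 - t) * (dot1 L.1 S.T 0 : ℝ) + t * (dot2 L.1 S.T 0 : ℝ)) +
          a * ((1 - t) * (S.tU.2.1 : ℝ) + t * (S.tU.2.2 : ℝ)) +
          b * ((1 - t) * (S.tQ.2.1 : ℝ) + t * (S.tQ.2.2 : ℝ))) * cu) *
          (Real.exp ((m : ℝ) * (((1 - t) * (S.tT.2.1 : ℝ) + t * (S.tT.2.2 : ℝ)) *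
            (Real.log 2 / 2 ^ 20))) * ‖tau s‖ ^ (2 * m)) :=
        mul_le_mul_of_nonneg_left hD' (Real.exp_pos _).le
    _ = Real.exp (((1 - t) * ((dot1 L.1 S.T 0 : ℝ) + (a * (S.tU.2.1 : ℝ) + b * (S.tQ.2.1 : ℝ) +
          m * (S.tT.2.1 : ℝ))) + t * ((dot2 L.1 S.T 0 : ℝ) + (a * (S.tU.2.2 : ℝ) +
          b * (S.tQ.2.2 : ℝ) + m * (S.tT.2.2 : ℝ)))) * cu) * ‖tau s‖ ^ (2 * m) := by
        rw [← mul_assoc, ← Real.exp_add]
        congr 2
        unfold cu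
        ring
    _ ≤ _ := by
        refine mul_le_mul_of_nonneg_right (Real.exp_le_exp.mpr ?_) (by positivity)
        refine mul_le_mul_of_nonneg_right ?_ cu_pos.le
        nlinarith

theorem okSegm_spec {fs : List Fac} {a b m : ℕ} {lev : List (List ℕ × ℤ)} {ex : ℤ}
    {U V : ℤ × ℤ} : ∀ (l : List (ℕ × Sub)) (i : ℕ), okSegm fs a b m lev ex U V i l = true →
    ∀ y : ℝ, (i : ℝ) < y → y ≤ lastPt i l →
      GoodC fs a b m lev ex (pnt10 U + (pnt10 V - pnt10 U) * ((y : ℂ) / 1024)) := by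
  intro l
  induction l with
  | nil =>
    intro i _ y h1 h2
    simp only [lastPt] at h2
    linarith
  | cons jS l ih =>
    obtain ⟨j, S⟩ := jS
    intro i h y h1 h2
    simp only [okSegm, Bool.and_eq_true] at h
    simp only [lastPt] at h2
    rcases le_or_gt y j with hy | hy
    · intro L hL hlen
      have hij : (0 : ℝ) < (j : ℝ) - i := by linarith
      have ht0 : 0 ≤ (y - i) / ((j : ℝ) - i) := div_nonneg (by linarith) hij.le
      have ht1 : (y - i) / ((j : ℝ) - i) ≤ 1 := by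
        rw [div_le_one hij]
        linarith
      have key := okSub_spec h.1 ht0 ht1 L hL hlen
      have e : (1 - (((y - i) / ((j : ℝ) - i) : ℝ) : ℂ)) * pnt (cpt U V i) +
          (((y - i) / ((j : ℝ) - i) : ℝ) : ℂ) * pnt (cpt U V j) =
          pnt10 U + (pnt10 V - pnt10 U) * ((y : ℂ) / 1024) := by
        rw [pnt_cpt, pnt_cpt]
        have hij' : ((j : ℂ) - i) ≠ 0 := by
          have : (((j : ℝ) - i : ℝ) : ℂ) ≠ 0 := by exact_mod_cast hij.ne'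
          simpa using this
        push_cast
        field_simp
        ring
      rw [e] at key
      exact key
    · exact ih j h.2 y hy h2

theorem okSegm_first {fs : List Fac} {a b m : ℕ} {lev : List (List ℕ × ℤ)} {ex : ℤ}
    {U V : ℤ × ℤ} {l : List (ℕ × Sub)} (hl : l ≠ [])
    (h : okSegm fs a b m lev ex U V 0 l = true) : GoodC fs a b m lev ex (pnt10 U) := by
  cases l with
  | nil => exact absurd rfl hl
  | cons jS l =>
    obtain ⟨j, S⟩ := jS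
    simp only [okSegm, Bool.and_eq_true] at h
    intro L hL hlen
    have key := okSub_spec h.1 le_rfl zero_le_one L hL hlen
    simpa [pnt_cpt] using key

theorem okSegm_segment {fs : List Fac} {a b m : ℕ} {lev : List (List ℕ × ℤ)} {ex : ℤ}
    {U V : ℤ × ℤ} {l : List (ℕ × Sub)} (hl : l ≠ []) (hlast : lastPt 0 l = 1024)
    (h : okSegm fs a b m lev ex U V 0 l = true) :
    ∀ s ∈ segment ℝ (pnt10 U) (pnt10 V), GoodC fs a b m lev ex s := by
  intro s hs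
  rw [segment_eq_image'] at hs
  obtain ⟨θ, ⟨h0, h1⟩, rfl⟩ := hs
  rcases h0.eq_or_lt with h0 | h0
  · subst h0
    simpa using okSegm_first hl h
  · have key := okSegm_spec l 0 h (1024 * θ) (by push_cast; linarith)
      (by rw [hlast]; push_cast; linarith)
    have e : pnt10 U + (pnt10 V - pnt10 U) * (((1024 * θ : ℝ) : ℂ) / 1024) =
        pnt10 U + θ • (pnt10 V - pnt10 U) := by
      rw [Complex.real_smul]
      push_cast
      ring
    rw [e] at key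
    exact key

/-- an integer `G` with `P ^ 32768 ≤ 2 ^ G` -/
def lgU (P : ℕ) (k : ℕ → Bool) : Bool :=
  frc (Nat.mul P 4294967296) fun Q => lgB Q (fun g => frc (Nat.sub g 63) fun r =>
    frc (Nat.pow 2 r) fun c => frc (Nat.div (Nat.add Q (Nat.sub c 1)) c) fun m0 =>
    sqU 15 m0 r fun m s => and (Nat.ble m 18446744073709551616) (and (Nat.ble 1048512 s)
      (frc (Nat.sub s 1048512) k))) [128, 64, 32, 16, 8, 4, 2, 1] 0

/-- an integer `G` with `2 ^ G ≤ P ^ 32768` -/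
def lgL (P : ℕ) (k : ℕ → Bool) : Bool :=
  frc (Nat.mul P 4294967296) fun Q => lgB Q (fun g => frc (Nat.sub g 63) fun r =>
    frc (Nat.pow 2 r) fun c => frc (Nat.div Q c) fun m0 =>
    sqL 15 m0 r fun m s => and (Nat.ble 9223372036854775808 m) (and (Nat.ble 1048513 s)
      (frc (Nat.sub s 1048513) k))) [128, 64, 32, 16, 8, 4, 2, 1] 0

/-- compute the entry of a numerator factor -/
def entN (u v : ℤ × ℤ) (l : List (ℤ × ℤ)) (n : ℤ) (k : ℕ × ℤ × ℤ → Bool) : Bool :=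
  goN u v (fun P s t => lgU P fun G =>
    frcZ (Int.add (32 * (G : ℤ) - n) s) fun a => frcZ (Int.add (32 * (G : ℤ) - n) t) fun b =>
    k (G, a, b)) l 1 0 0

/-- compute the entry of the denominator -/
def entD (u v : ℤ × ℤ) (l : List (ℤ × ℤ)) (n : ℤ) (k : ℕ × ℤ × ℤ → Bool) : Bool :=
  frc (cA u v) fun A => goD u v A (fun P s t => lgL P fun g =>
    frcZ (Int.add (n - 32 * (g : ℤ)) s) fun a => frcZ (Int.add (n - 32 * (g : ℤ)) t) fun b =>
    k (g, a, b)) l 1 0 0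

/-- the entries of a list of factors -/
def runL (u v : ℤ × ℤ) : List Fac → (List (ℕ × ℤ × ℤ) → Bool) → Bool
  | [], k => k []
  | f :: fs, k =>
    entN u v f.roots (44040192 * (f.roots.length : ℤ)) fun e => runL u v fs fun T => k (e :: T)

/-- check of one subsegment -/
def runSub (fs : List Fac) (a b m : ℕ) (lev : List (List ℕ × ℤ)) (ex : ℤ) (u v : ℤ × ℤ) : Bool :=
  runL u v fs fun T => entN u v (Fac.roots (.re 0)) 88080384 fun tU =>
  entN u v (Fac.roots (.quad 1024 2048)) 176160768 fun tQ =>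
  entD u v (Fac.roots (.re 5120)) 88080384 fun tT =>
  frcZ ((a : ℤ) * tU.2.1 + (b : ℤ) * tQ.2.1 + (m : ℤ) * tT.2.1 - ex) fun c1 =>
  frcZ ((a : ℤ) * tU.2.2 + (b : ℤ) * tQ.2.2 + (m : ℤ) * tT.2.2 - ex) fun c2 =>
  okLev T c1 c2 lev

/-- check of a segment -/
def runSegm (fs : List Fac) (a b m : ℕ) (lev : List (List ℕ × ℤ)) (ex : ℤ) (U V : ℤ × ℤ) :
    ℕ → List ℕ → Bool
  | _, [] => true
  | i, j :: l => and (frcP (cpt U V i) fun u => frcP (cpt U V j) fun v =>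
      runSub fs a b m lev ex u v) (runSegm fs a b m lev ex U V j l)

theorem Run_okL_cons (u v : ℤ × ℤ) (f : Fac) (fs : List Fac) (e : ℕ × ℤ × ℤ)
    (es : List (ℕ × ℤ × ℤ)) : okL u v (f :: fs) (e :: es) =
    and (okN u v f.roots (44040192 * (f.roots.length : ℤ)) e) (okL u v fs es) := rfl

theorem Run_okSegm_cons (fs : List Fac) (a b m : ℕ) (lev : List (List ℕ × ℤ)) (ex : ℤ)
    (U V : ℤ × ℤ) (i j : ℕ) (S : Sub) (l : List (ℕ × Sub)) :
    okSegm fs a b m lev ex U V i ((j, S) :: l) =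
    and (okSub fs a b m lev ex (cpt U V i) (cpt U V j) S)
      (okSegm fs a b m lev ex U V j l) := rfl

theorem Run_pow_le {a b x : ℕ} (hx : a * 2 ^ 32 ≤ x)
    (h : x ^ 32768 ≤ 2 ^ (b + 1048576)) : a ^ 32768 ≤ 2 ^ b := by
  have h1 : (a * 2 ^ 32) ^ 32768 ≤ 2 ^ (b + 1048576) := (Nat.pow_le_pow_left hx _).trans h
  rw [mul_pow, ← pow_mul, pow_add] at h1
  exact Nat.le_of_mul_le_mul_right h1 (Nat.two_pow_pos _)

theorem lgU_ex {P : ℕ} {k : ℕ → Bool} (h : lgU P k = true) :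
    ∃ G, P ^ 32768 ≤ 2 ^ G ∧ k G = true := by
  unfold lgU at h
  rw [frc_eq] at h
  obtain ⟨g, hg⟩ := Run_lgB_ex (Nat.mul P 4294967296) [128, 64, 32, 16, 8, 4, 2, 1] 0
  rw [hg] at h
  simp only [frc_eq] at h
  set r := Nat.sub g 63 with hr
  set Q := Nat.mul P 4294967296 with hQ
  set m0 := Nat.div (Nat.add Q (Nat.sub (Nat.pow 2 r) 1)) (Nat.pow 2 r) with hm0
  obtain ⟨m, s, hs, hle⟩ := Run_sqU_ex 15 m0 r
  rw [hs] at h
  simp only [Bool.and_eq_true, Nat.ble_eq] at h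
  refine ⟨_, ?_, h.2.2⟩
  have h0 : Q ≤ m0 * 2 ^ r := by
    have h1 : m0 = (Q + (2 ^ r - 1)) / 2 ^ r := rfl
    rw [h1]
    have h2 := Nat.div_add_mod (Q + (2 ^ r - 1)) (2 ^ r)
    have h3 := Nat.mod_lt (Q + (2 ^ r - 1)) (Nat.two_pow_pos r)
    rw [mul_comm]
    omega
  have h4 : P * 2 ^ 32 ≤ m0 * 2 ^ r := by
    refine le_trans (le_of_eq ?_) h0
    show P * 2 ^ 32 = P * 4294967296
    norm_num
  refine Run_pow_le h4 ?_
  have h5 : (m0 * 2 ^ r) ^ 32768 ≤ m * 2 ^ s := by simpa using hle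
  refine h5.trans ?_
  have h6 : s - 1048512 + 1048576 = 64 + s := by omega
  calc m * 2 ^ s ≤ 18446744073709551616 * 2 ^ s := Nat.mul_le_mul_right _ h.1
    _ = 2 ^ (64 + s) := by rw [pow_add]; norm_num
    _ = 2 ^ (s - 1048512 + 1048576) := by rw [h6]

theorem lgL_ex {P : ℕ} {k : ℕ → Bool} (h : lgL P k = true) :
    ∃ G, 2 ^ G ≤ P ^ 32768 ∧ k G = true := by
  unfold lgL at h
  rw [frc_eq] at h
  obtain ⟨g, hg⟩ := Run_lgB_ex (Nat.mul P 4294967296) [128, 64, 32, 16, 8, 4, 2, 1] 0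
  rw [hg] at h
  simp only [frc_eq] at h
  set r := Nat.sub g 63 with hr
  set Q := Nat.mul P 4294967296 with hQ
  set m0 := Nat.div Q (Nat.pow 2 r) with hm0
  obtain ⟨m, s, hs, hle⟩ := Run_sqL_ex 15 m0 r
  rw [hs] at h
  simp only [Bool.and_eq_true, Nat.ble_eq] at h
  refine ⟨_, ?_, h.2.2⟩
  have h0 : m0 * 2 ^ r ≤ Q := Nat.div_mul_le_self _ _
  have h4 : m0 * 2 ^ r ≤ P * 2 ^ 32 := by
    refine h0.trans (le_of_eq ?_)
    show P * 4294967296 = P * 2 ^ 32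
    norm_num
  have h5 : m * 2 ^ s ≤ (m0 * 2 ^ r) ^ 32768 := by simpa using hle
  have h6 : s - 1048513 + 1048576 = 63 + s := by omega
  have h7 : 2 ^ (s - 1048513) * 2 ^ 1048576 ≤ P ^ 32768 * 2 ^ 1048576 := by
    calc 2 ^ (s - 1048513) * 2 ^ 1048576 = 2 ^ (63 + s) := by rw [← pow_add, h6]
      _ = 9223372036854775808 * 2 ^ s := by rw [pow_add]; norm_num
      _ ≤ m * 2 ^ s := Nat.mul_le_mul_right _ h.1
      _ ≤ (m0 * 2 ^ r) ^ 32768 := h5
      _ ≤ (P * 2 ^ 32) ^ 32768 := Nat.pow_le_pow_left h4 _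
      _ = P ^ 32768 * 2 ^ 1048576 := by rw [mul_pow, ← pow_mul]
  exact Nat.le_of_mul_le_mul_right h7 (Nat.two_pow_pos _)

theorem entN_spec {u v : ℤ × ℤ} {l : List (ℤ × ℤ)} {n : ℤ} {k : ℕ × ℤ × ℤ → Bool}
    (h : entN u v l n k = true) : ∃ e, okN u v l n e = true ∧ k e = true := by
  obtain ⟨c, P, s, t, hg⟩ := Run_goN_ex u v l 1 0 0
  unfold entN at h
  rw [hg] at h
  rw [Bool.and_eq_true] at h
  obtain ⟨G, hG, h2⟩ := lgU_ex h.2
  simp only [frcZ_eq] at h2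
  refine ⟨_, ?_, h2⟩
  unfold okN
  rw [hg]
  simp only [Bool.and_eq_true, zle_iff]
  exact ⟨h.1, Nat.ble_eq.mpr hG, le_rfl, le_rfl⟩

theorem entD_spec {u v : ℤ × ℤ} {l : List (ℤ × ℤ)} {n : ℤ} {k : ℕ × ℤ × ℤ → Bool}
    (h : entD u v l n k = true) : ∃ e, okD u v l n e = true ∧ k e = true := by
  obtain ⟨c, P, s, t, hg⟩ := Run_goD_ex u v (cA u v) l 1 0 0
  unfold entD at h
  rw [frc_eq, hg] at h
  rw [Bool.and_eq_true] at h
  obtain ⟨G, hG, h2⟩ := lgL_ex h.2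
  simp only [frcZ_eq] at h2
  refine ⟨_, ?_, h2⟩
  unfold okD
  rw [frc_eq, hg]
  simp only [Bool.and_eq_true, zle_iff]
  exact ⟨h.1, Nat.ble_eq.mpr hG, le_rfl, le_rfl⟩

theorem runL_spec {u v : ℤ × ℤ} (fs : List Fac) : ∀ {k : List (ℕ × ℤ × ℤ) → Bool},
    runL u v fs k = true → ∃ T, okL u v fs T = true ∧ k T = true := by
  induction fs with
  | nil => intro k h; exact ⟨[], rfl, h⟩
  | cons f fs ih =>
    intro k h
    simp only [runL] at h
    obtain ⟨e, he, h⟩ := entN_spec h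
    obtain ⟨T, hT, h⟩ := ih h
    refine ⟨e :: T, ?_, h⟩
    rw [Run_okL_cons, he, hT, Bool.and_true]

theorem runSub_spec {fs : List Fac} {a b m : ℕ} {lev : List (List ℕ × ℤ)} {ex : ℤ}
    {u v : ℤ × ℤ} (h : runSub fs a b m lev ex u v = true) :
    ∃ S, okSub fs a b m lev ex u v S = true := by
  unfold runSub at h
  obtain ⟨T, hT, h⟩ := runL_spec fs h
  obtain ⟨tU, hU, h⟩ := entN_spec h
  obtain ⟨tQ, hQ, h⟩ := entN_spec h
  obtain ⟨tT, hD, h⟩ := entD_spec h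
  refine ⟨⟨tU, tQ, tT, T⟩, ?_⟩
  unfold okSub
  simp only [hT, hU, hQ, hD, Bool.true_and]
  exact h

theorem runSegm_spec {fs : List Fac} {a b m : ℕ} {lev : List (List ℕ × ℤ)} {ex : ℤ}
    {U V : ℤ × ℤ} : ∀ (l : List ℕ) (i : ℕ), runSegm fs a b m lev ex U V i l = true →
    ∃ tab : List (ℕ × Sub), okSegm fs a b m lev ex U V i tab = true ∧
      lastPt i tab = lastN i l ∧ (l ≠ [] → tab ≠ []) := by
  intro l
  induction l with
  | nil => intro i _; exact ⟨[], rfl, rfl, fun h => absurd rfl h⟩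
  | cons j l ih =>
    intro i h
    simp only [runSegm, Bool.and_eq_true, frcP_eq] at h
    obtain ⟨S, hS⟩ := runSub_spec h.1
    obtain ⟨tab, h1, h2, _⟩ := ih j h.2
    refine ⟨(j, S) :: tab, ?_, h2, fun _ => by simp⟩
    rw [Run_okSegm_cons, hS, h1, Bool.and_self]

theorem runSegm_segment {fs : List Fac} {a b m : ℕ} {lev : List (List ℕ × ℤ)} {ex : ℤ}
    {U V : ℤ × ℤ} {l : List ℕ} (hl : l ≠ []) (hlast : lastN 0 l = 1024)
    (h : runSegm fs a b m lev ex U V 0 l = true) :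
    ∀ s ∈ segment ℝ (pnt10 U) (pnt10 V), GoodC fs a b m lev ex s := by
  obtain ⟨tab, h1, h2, h3⟩ := runSegm_spec l 0 h
  exact okSegm_segment (h3 hl) (h2.trans hlast) h1

theorem runSegm_app {fs : List Fac} {a b m : ℕ} {lev : List (List ℕ × ℤ)} {ex : ℤ}
    {U V : ℤ × ℤ} {j : ℕ} {l2 : List ℕ} : ∀ {l1 : List ℕ} {i : ℕ},
    runSegm fs a b m lev ex U V i l1 = true → lastN i l1 = j →
    runSegm fs a b m lev ex U V j l2 = true →
    runSegm fs a b m lev ex U V i (l1 ++ l2) = true := by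
  intro l1
  induction l1 with
  | nil =>
    intro i _ hj h
    simp only [lastN] at hj
    subst hj
    exact h
  | cons j l ih =>
    intro i h1 hj h2
    simp only [runSegm, Bool.and_eq_true] at h1
    simp only [lastN] at hj
    simp only [List.cons_append, runSegm, Bool.and_eq_true]
    exact ⟨h1.1, ih h1.2 hj h2⟩

end Vale.Agent.P021.DetX
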