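import Vale.Agent.P021.C3.ChordX

/-!
# A faster evaluation of the chord checker

The entries of the table are converted to natural numbers (offset `2^32`) before the levels are
checked.
-/

set_option linter.all false

open Polynomial

namespace Vale.Agent.P021.DetX

open Vale.Agent.P021.Det

/-- entries of a list of root lists -/
def runLR (u v : ℤ × ℤ) : List (List (ℤ × ℤ)) → (List (ℕ × ℤ × ℤ) → Bool) → Bool
  | [], k => k []
  | R :: Rs, k =>
    entN u v R (44040192 * (R.length : ℤ)) fun e => runLR u v Rs fun T => k (e :: T)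

/-- conversion of the table to natural numbers -/
def cvL : List (ℕ × ℤ × ℤ) → (List (ℕ × ℕ) → Bool) → Bool
  | [], k => k []
  | t :: ts, k => frc (Int.toNat (Int.add t.2.1 4294967296)) fun a =>
    frc (Int.toNat (Int.add t.2.2 4294967296)) fun b => cvL ts fun T => k ((a, b) :: T)

/-- both dot products -/
noncomputable def dotK (es : List ℕ) : List (ℕ × ℕ) → ℕ → ℕ → (ℕ → ℕ → Bool) → Bool :=
  List.rec (motive := fun _ => List (ℕ × ℕ) → ℕ → ℕ → (ℕ → ℕ → Bool) → Bool)
    (fun _ s t k => k s t)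
    (fun e _ ih T s t k => List.casesOn (motive := fun _ => Bool) T (k s t)
      (fun p T => frc (Nat.add s (Nat.mul e p.1)) fun s => frc (Nat.add t (Nat.mul e p.2)) fun t =>
        ih T s t k)) es

/-- check of the levels -/
noncomputable def okLevN (T : List (ℕ × ℕ)) (c1 c2 : ℕ) (lev : List (List ℕ × ℕ)) : Bool :=
  List.rec (motive := fun _ => Bool) true
    (fun L _ ih => dotK L.1 T c1 c2 fun s t => and (Nat.ble s L.2) (and (Nat.ble t L.2) ih)) lev

/-- check of one subsegment -/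
noncomputable def runSubN (rs : List (List (ℤ × ℤ))) (a b m : ℕ) (lev : List (List ℕ × ℕ)) (ex : ℤ)
    (u v : ℤ × ℤ) : Bool :=
  runLR u v rs fun T => cvL T fun T' => entN u v (Fac.roots (.re 0)) 88080384 fun tU =>
  entN u v (Fac.roots (.quad 1024 2048)) 176160768 fun tQ =>
  entD u v (Fac.roots (.re 5120)) 88080384 fun tT =>
  frc (Int.toNat ((a : ℤ) * tU.2.1 + (b : ℤ) * tQ.2.1 + (m : ℤ) * tT.2.1 - ex +
    1152921504606846976)) fun c1 =>
  frc (Int.toNat ((a : ℤ) * tU.2.2 + (b : ℤ) * tQ.2.2 + (m : ℤ) * tT.2.2 - ex +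
    1152921504606846976)) fun c2 =>
  okLevN T' c1 c2 lev

/-- check of a segment -/
noncomputable def runSegmN (rs : List (List (ℤ × ℤ))) (a b m : ℕ) (lev : List (List ℕ × ℕ))
    (ex : ℤ) (U V : ℤ × ℤ) (i : ℕ) (l : List ℕ) : Bool :=
  List.rec (motive := fun _ => ℕ → Bool) (fun _ => true)
    (fun j _ ih i => and (frcP (cpt U V i) fun u => frcP (cpt U V j) fun v =>
      runSubN rs a b m lev ex u v) (ih j)) l i

/-- consistency of the two forms of the levels -/
def cvOK (n : ℕ) : List (List ℕ × ℤ) → List (List ℕ × ℕ) → Bool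
  | [], [] => true
  | L :: l, M :: m => decide (L.1 = M.1) && (decide (L.1.length ≤ n) &&
      (decide ((M.2 : ℤ) = L.2 + 1152921504606846976 + 4294967296 * (L.1.sum : ℤ)) && cvOK n l m))
  | _, _ => false

/-! ### soundness -/

theorem runLR_map (u v : ℤ × ℤ) (fs : List Fac) : ∀ k,
    runLR u v (fs.map Fac.roots) k = runL u v fs k := by
  induction fs with
  | nil => intro k; rfl
  | cons f fs ih =>
    intro k
    simp only [List.map_cons, runLR, runL]
    congr 1
    funext e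
    exact ih _

theorem runL_spec' {u v : ℤ × ℤ} (fs : List Fac) : ∀ {k : List (ℕ × ℤ × ℤ) → Bool},
    runL u v fs k = true → ∃ T, okL u v fs T = true ∧ k T = true ∧ T.length = fs.length := by
  induction fs with
  | nil => intro k h; exact ⟨[], rfl, h, rfl⟩
  | cons f fs ih =>
    intro k h
    simp only [runL] at h
    obtain ⟨e, he, h⟩ := entN_spec h
    obtain ⟨T, hT, h, hl⟩ := ih h
    refine ⟨e :: T, ?_, h, by simp [hl]⟩
    rw [Run_okL_cons, he, hT, Bool.and_true]

/-- the relation between the two tables -/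
def RelT (t : ℕ × ℤ × ℤ) (p : ℕ × ℕ) : Prop :=
  t.2.1 + 4294967296 ≤ (p.1 : ℤ) ∧ t.2.2 + 4294967296 ≤ (p.2 : ℤ)

theorem cvL_spec (T : List (ℕ × ℤ × ℤ)) : ∀ {k : List (ℕ × ℕ) → Bool}, cvL T k = true →
    ∃ T', List.Forall₂ RelT T T' ∧ k T' = true := by
  induction T with
  | nil => intro k h; exact ⟨[], List.Forall₂.nil, h⟩
  | cons t T ih =>
    intro k h
    simp only [cvL, frc_eq] at h
    obtain ⟨T', hT, hk⟩ := ih h
    refine ⟨_, List.Forall₂.cons ⟨?_, ?_⟩ hT, hk⟩
    · exact Int.self_le_toNat _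
    · exact Int.self_le_toNat _

theorem dotK_nil (T : List (ℕ × ℕ)) (s t : ℕ) (k : ℕ → ℕ → Bool) : dotK [] T s t k = k s t := rfl

theorem dotK_cons (e : ℕ) (es : List ℕ) (p : ℕ × ℕ) (T : List (ℕ × ℕ)) (s t : ℕ)
    (k : ℕ → ℕ → Bool) : dotK (e :: es) (p :: T) s t k =
      frc (Nat.add s (Nat.mul e p.1)) fun s => frc (Nat.add t (Nat.mul e p.2)) fun t =>
        dotK es T s t k := rfl

theorem dotK_spec (es : List ℕ) : ∀ (T : List (ℕ × ℤ × ℤ)) (T' : List (ℕ × ℕ)),
    List.Forall₂ RelT T T' → es.length ≤ T.length → ∀ (s t : ℕ) (k : ℕ → ℕ → Bool),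
    dotK es T' s t k = true → ∃ s' t' : ℕ, k s' t' = true ∧
      dot1 es T 0 + 4294967296 * (es.sum : ℤ) + s ≤ (s' : ℤ) ∧
      dot2 es T 0 + 4294967296 * (es.sum : ℤ) + t ≤ (t' : ℤ) := by
  induction es with
  | nil =>
    intro T T' _ _ s t k h
    rw [dotK_nil] at h
    refine ⟨s, t, h, ?_, ?_⟩
    · cases T <;> simp [dot1]
    · cases T <;> simp [dot2]
  | cons e es ih =>
    intro T T' hR hl s t k h
    cases hR with
    | nil => simp at hl
    | @cons a p T T' hap hR =>
      rw [dotK_cons, frc_eq, frc_eq] at h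
      obtain ⟨s', t', hk, h1, h2⟩ := ih T T' hR (by simpa using hl) _ _ _ h
      refine ⟨s', t', hk, ?_, ?_⟩
      · rw [dot1_cons]
        have e1 : ((Nat.add s (Nat.mul e p.1) : ℕ) : ℤ) = s + e * (p.1 : ℤ) := by
          rw [Nat.add_eq, Nat.mul_eq]; push_cast; rfl
        rw [e1] at h1
        have e2 : (e : ℤ) * (a.2.1 + 4294967296) ≤ e * (p.1 : ℤ) :=
          mul_le_mul_of_nonneg_left hap.1 (Int.natCast_nonneg e)
        rw [List.sum_cons]
        push_cast
        push_cast at h1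
        linarith only [h1, e2]
      · rw [dot2_cons]
        have e1 : ((Nat.add t (Nat.mul e p.2) : ℕ) : ℤ) = t + e * (p.2 : ℤ) := by
          rw [Nat.add_eq, Nat.mul_eq]; push_cast; rfl
        rw [e1] at h2
        have e2 : (e : ℤ) * (a.2.2 + 4294967296) ≤ e * (p.2 : ℤ) :=
          mul_le_mul_of_nonneg_left hap.2 (Int.natCast_nonneg e)
        rw [List.sum_cons]
        push_cast
        push_cast at h2
        linarith only [h2, e2]

theorem okLevN_spec {T : List (ℕ × ℤ × ℤ)} {T' : List (ℕ × ℕ)} (hR : List.Forall₂ RelT T T')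
    {c1 c2 : ℕ} {d1 d2 : ℤ} (h1 : d1 + 1152921504606846976 ≤ c1)
    (h2 : d2 + 1152921504606846976 ≤ c2) : ∀ (lev : List (List ℕ × ℤ)) (levN : List (List ℕ × ℕ)),
    cvOK T.length lev levN = true → okLevN T' c1 c2 levN = true → okLev T d1 d2 lev = true := by
  intro lev
  induction lev with
  | nil => intro levN _ _; rfl
  | cons L lev ih =>
    intro levN hcv hok
    cases levN with
    | nil => simp [cvOK] at hcv
    | cons M levN =>
      simp only [cvOK, Bool.and_eq_true, decide_eq_true_eq] at hcv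
      obtain ⟨hLM, hlen, hval, hcv⟩ := hcv
      have hok' : dotK M.1 T' c1 c2 (fun s t => and (Nat.ble s M.2) (and (Nat.ble t M.2)
        (okLevN T' c1 c2 levN))) = true := hok
      rw [← hLM] at hok'
      obtain ⟨s', t', hk, k1, k2⟩ := dotK_spec _ _ _ hR hlen _ _ _ hok'
      simp only [Bool.and_eq_true, Nat.ble_eq] at hk
      obtain ⟨hs, ht, hrest⟩ := hk
      have hs' : (s' : ℤ) ≤ M.2 := by exact_mod_cast hs
      have ht' : (t' : ℤ) ≤ M.2 := by exact_mod_cast ht
      simp only [okLev, Bool.and_eq_true, zle_iff]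
      refine ⟨?_, ?_, ih levN hcv hrest⟩
      · rw [dot1_add]
        linarith only [k1, hs', hval, h1]
      · rw [dot2_add]
        linarith only [k2, ht', hval, h2]

theorem runSubN_spec {fs : List Fac} {rs : List (List (ℤ × ℤ))} (hrs : rs = fs.map Fac.roots)
    {a b m : ℕ} {lev : List (List ℕ × ℤ)} {levN : List (List ℕ × ℕ)}
    (hcv : cvOK fs.length lev levN = true) {ex : ℤ} {u v : ℤ × ℤ}
    (h : runSubN rs a b m levN ex u v = true) :
    ∃ S, okSub fs a b m lev ex u v S = true := by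
  unfold runSubN at h
  rw [hrs, runLR_map] at h
  obtain ⟨T, hT, h, hlT⟩ := runL_spec' fs h
  obtain ⟨T', hR, h⟩ := cvL_spec T h
  obtain ⟨tU, hU, h⟩ := entN_spec h
  obtain ⟨tQ, hQ, h⟩ := entN_spec h
  obtain ⟨tT, hD, h⟩ := entD_spec h
  simp only [frc_eq] at h
  refine ⟨⟨tU, tQ, tT, T⟩, ?_⟩
  unfold okSub
  simp only [hT, hU, hQ, hD, Bool.true_and, frcZ_eq]
  exact okLevN_spec hR (Int.self_le_toNat _) (Int.self_le_toNat _) lev levN (by rw [hlT]; exact hcv) h

theorem runSegmN_cons (rs : List (List (ℤ × ℤ))) (a b m : ℕ) (lev : List (List ℕ × ℕ))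
    (ex : ℤ) (U V : ℤ × ℤ) (i j : ℕ) (l : List ℕ) :
    runSegmN rs a b m lev ex U V i (j :: l) =
      and (frcP (cpt U V i) fun u => frcP (cpt U V j) fun v =>
      runSubN rs a b m lev ex u v) (runSegmN rs a b m lev ex U V j l) := rfl

theorem runSegmN_spec {fs : List Fac} {rs : List (List (ℤ × ℤ))} (hrs : rs = fs.map Fac.roots)
    {a b m : ℕ} {lev : List (List ℕ × ℤ)} {levN : List (List ℕ × ℕ)}
    (hcv : cvOK fs.length lev levN = true) {ex : ℤ}
    {U V : ℤ × ℤ} : ∀ (l : List ℕ) (i : ℕ), runSegmN rs a b m levN ex U V i l = true →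
    ∃ tab : List (ℕ × Sub), okSegm fs a b m lev ex U V i tab = true ∧
      lastPt i tab = lastN i l ∧ (l ≠ [] → tab ≠ []) := by
  intro l
  induction l with
  | nil => intro i _; exact ⟨[], rfl, rfl, fun h => absurd rfl h⟩
  | cons j l ih =>
    intro i h
    rw [runSegmN_cons] at h
    simp only [Bool.and_eq_true, frcP_eq] at h
    obtain ⟨S, hS⟩ := runSubN_spec hrs hcv h.1
    obtain ⟨tab, h1, h2, _⟩ := ih j h.2
    refine ⟨(j, S) :: tab, ?_, h2, fun _ => by simp⟩
    rw [Run_okSegm_cons, hS, h1, Bool.and_self]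

theorem runSegmN_segment {fs : List Fac} {rs : List (List (ℤ × ℤ))} (hrs : rs = fs.map Fac.roots)
    {a b m : ℕ} {lev : List (List ℕ × ℤ)} {levN : List (List ℕ × ℕ)}
    (hcv : cvOK fs.length lev levN = true) {ex : ℤ}
    {U V : ℤ × ℤ} {l : List ℕ} (hl : l ≠ []) (hlast : lastN 0 l = 1024)
    (h : runSegmN rs a b m levN ex U V 0 l = true) :
    ∀ s ∈ segment ℝ (pnt10 U) (pnt10 V), GoodC fs a b m lev ex s := by
  obtain ⟨tab, h1, h2, h3⟩ := runSegmN_spec hrs hcv l 0 h
  exact okSegm_segment (h3 hl) (h2.trans hlast) h1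

theorem runSegmN_app {rs : List (List (ℤ × ℤ))} {a b m : ℕ} {lev : List (List ℕ × ℕ)} {ex : ℤ}
    {U V : ℤ × ℤ} {j : ℕ} {l2 : List ℕ} : ∀ {l1 : List ℕ} {i : ℕ},
    runSegmN rs a b m lev ex U V i l1 = true → lastN i l1 = j →
    runSegmN rs a b m lev ex U V j l2 = true →
    runSegmN rs a b m lev ex U V i (l1 ++ l2) = true := by
  intro l1
  induction l1 with
  | nil =>
    intro i _ hj h
    simp only [lastN] at hj
    subst hj
    exact h
  | cons j l ih =>
    intro i h1 hj h2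
    rw [runSegmN_cons] at h1
    simp only [Bool.and_eq_true] at h1
    simp only [lastN] at hj
    rw [List.cons_append, runSegmN_cons]
    simp only [Bool.and_eq_true]
    exact ⟨h1.1, ih h1.2 hj h2⟩

end Vale.Agent.P021.DetX
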