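import Vale.Agent.P021.C3.ChordY

/-!
# A still faster evaluation of the chord checker

All computations with the roots are done with natural numbers, and the levels are packed into
one number per factor.
-/

set_option linter.all false

open Polynomial

namespace Vale.Agent.P021.DetX

open Vale.Agent.P021.Det

/-- square of the distance of two natural numbers -/
def sqd (x r : ℕ) : ℕ :=
  frc (Nat.add (Nat.sub x r) (Nat.sub r x)) fun d => Nat.mul d d

/-- shifted version of `cC` -/
def cCn (x y : ℕ) : ℕ :=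
  Bool.casesOn (Nat.ble y x)
    (Nat.sub 2097152 (Nat.div (Nat.mul (Nat.sub y x) 1512775394263040) (Nat.mul y 1000000000)))
    (Nat.add 2097152 (Nat.succ (Nat.div (Nat.mul (Nat.sub x y) 1512775397408768)
      (Nat.mul y 1000000000))))

/-- accumulate over the roots -/
noncomputable def goM (U1 U2 V1 V2 M1 M2 : ℕ) (k : ℕ → ℕ → ℕ → Bool) (l : List (ℕ × ℕ)) :
    ℕ → ℕ → ℕ → Bool :=
  List.rec (motive := fun _ => ℕ → ℕ → ℕ → Bool) k
    (fun r _ ih P s t =>
      frc (Nat.add (sqd U1 r.1) (sqd U2 r.2)) fun a =>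
      frc (Nat.add (sqd V1 r.1) (sqd V2 r.2)) fun b =>
      frc (clam a b (Nat.add (sqd M1 r.1) (sqd M2 r.2))) fun L =>
      frc (Nat.mul P L) fun P' => frc (Nat.add s (cCn a L)) fun s' =>
      frc (Nat.add t (cCn b L)) fun t' => and (Nat.ble 1 L) (ih P' s' t')) l

/-- the entry of a factor, as natural numbers -/
noncomputable def entM (U1 U2 V1 V2 M1 M2 : ℕ) (l : List (ℕ × ℕ)) (n : ℕ) (k : ℕ × ℕ → Bool) :
    Bool :=
  goM U1 U2 V1 V2 M1 M2 (fun P s t => DetX.lgU P fun G =>
    frc (Nat.sub (Nat.add (Nat.mul 32 G) (Nat.add s 4294967296)) n) fun a =>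
    frc (Nat.sub (Nat.add (Nat.mul 32 G) (Nat.add t 4294967296)) n) fun b =>
    and (Nat.ble a 8589934592) (and (Nat.ble b 8589934592) (k (a, b)))) l 1 0 0

/-- the entries of a list of factors (roots and shift) -/
noncomputable def runLM (U1 U2 V1 V2 M1 M2 : ℕ) (rs : List (List (ℕ × ℕ) × ℕ)) :
    (List (ℕ × ℕ) → Bool) → Bool :=
  List.rec (motive := fun _ => (List (ℕ × ℕ) → Bool) → Bool) (fun k => k [])
    (fun R _ ih k => entM U1 U2 V1 V2 M1 M2 R.1 R.2 fun e => ih fun T => k (e :: T)) rs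

/-- check of the packed levels -/
noncomputable def chkPk (Ms : List ℕ) : ℕ → Bool :=
  List.rec (motive := fun _ => ℕ → Bool) (fun _ => true)
    (fun M _ ih S => and (Nat.ble (Nat.mod S 18446744073709551616) M)
      (frc (Nat.div S 18446744073709551616) ih)) Ms

/-- natural coordinate -/
def cn (z : ℤ) : ℕ := Int.toNat (Int.add z 67108864)

/-- check of one subsegment -/
noncomputable def runSubM (rs : List (List (ℕ × ℕ) × ℕ)) (a b m : ℕ) (pk Ms : List ℕ) (ones : ℕ)
    (ex : ℤ) (u v : ℤ × ℤ) : Bool :=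
  frc (cn (2 * u.1)) fun U1 => frc (cn (2 * u.2)) fun U2 =>
  frc (cn (2 * v.1)) fun V1 => frc (cn (2 * v.2)) fun V2 =>
  frc (cn (u.1 + v.1)) fun M1 => frc (cn (u.2 + v.2)) fun M2 =>
  runLM U1 U2 V1 V2 M1 M2 rs fun T' => entN u v (Fac.roots (.re 0)) 88080384 fun tU =>
  entN u v (Fac.roots (.quad 1024 2048)) 176160768 fun tQ =>
  entD u v (Fac.roots (.re 5120)) 88080384 fun tT =>
  frc (Int.toNat ((a : ℤ) * tU.2.1 + (b : ℤ) * tQ.2.1 + (m : ℤ) * tT.2.1 - ex +
    1152921504606846976)) fun c1 =>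
  frc (Int.toNat ((a : ℤ) * tU.2.2 + (b : ℤ) * tQ.2.2 + (m : ℤ) * tT.2.2 - ex +
    1152921504606846976)) fun c2 =>
  and (Nat.ble c1 4611686018427387904) (and (Nat.ble c2 4611686018427387904)
    (dotK pk T' (Nat.mul c1 ones) (Nat.mul c2 ones) fun s t => and (chkPk Ms s) (chkPk Ms t)))

/-- check of a segment -/
noncomputable def runSegmM (rs : List (List (ℕ × ℕ) × ℕ)) (a b m : ℕ) (pk Ms : List ℕ) (ones : ℕ)
    (ex : ℤ) (U V : ℤ × ℤ) (i : ℕ) (l : List ℕ) : Bool :=
  List.rec (motive := fun _ => ℕ → Bool) (fun _ => true)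
    (fun j _ ih i => and (frcP (cpt U V i) fun u => frcP (cpt U V j) fun v =>
      runSubM rs a b m pk Ms ones ex u v) (ih j)) l i

/-- natural coordinates of a root -/
def rtn (r : ℤ × ℤ) : ℕ × ℕ := (cn (2048 * r.1), cn (2048 * r.2))

/-- natural data of a factor -/
def facn (f : Fac) : List (ℕ × ℕ) × ℕ :=
  (f.roots.map rtn, 44040192 * f.roots.length + 2097152 * f.roots.length)

/-- the coordinates of the roots are not too small -/
def facOK (f : Fac) : Bool :=
  f.roots.all fun r => decide (-67108864 ≤ 2048 * r.1) && decide (-67108864 ≤ 2048 * r.2)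

/-- add a row to the packed columns -/
def addRow : List ℕ → List ℕ → List ℕ
  | [], E => E.map (fun x => 18446744073709551616 * x)
  | e :: es, x :: E => (e + 18446744073709551616 * x) :: addRow es E
  | _ :: _, [] => []

/-- the packed columns -/
def colPack (n : ℕ) : List (List ℕ × ℤ) → List ℕ
  | [] => List.replicate n 0
  | L :: l => addRow L.1 (colPack n l)

/-- the packed ones -/
def onesPack : List (List ℕ × ℤ) → ℕ
  | [] => 0
  | _ :: l => 1 + 18446744073709551616 * onesPack l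

/-- consistency of the levels and the bounds -/
def cvOKM (n : ℕ) : List (List ℕ × ℤ) → List ℕ → Bool
  | [], [] => true
  | L :: l, M :: m => decide (L.1.length ≤ n) && (decide (L.1.sum ≤ 1048576) &&
      (decide ((M : ℤ) = L.2 + 1152921504606846976 + 4294967296 * (L.1.sum : ℤ)) && cvOKM n l m))
  | _, _ => false

/-! ### soundness -/

theorem sqd_eq (x r : ℕ) : sqd x r = ((x : ℤ) - r).natAbs ^ 2 := by
  unfold sqd
  rw [frc_eq]
  have h : Nat.add (Nat.sub x r) (Nat.sub r x) = ((x : ℤ) - r).natAbs := by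
    rw [Nat.add_eq, Nat.sub_eq, Nat.sub_eq]
    omega
  rw [h, Nat.mul_eq, sq]

theorem cn_eq {z : ℤ} (h : -67108864 ≤ z) : ((cn z : ℕ) : ℤ) = z + 67108864 := by
  unfold cn
  have h2 : Int.add z 67108864 = z + 67108864 := rfl
  rw [h2]
  exact Int.toNat_of_nonneg (by omega)

theorem cCn_ge (x y : ℕ) : cC x y + 2097152 ≤ ((cCn x y : ℕ) : ℤ) := by
  unfold cC cCn
  cases h : Nat.ble y x with
  | false =>
    show Int.neg (((Nat.div (Nat.mul (Nat.sub y x) 1512775394263040)
      (Nat.mul y 1000000000) : ℕ) : ℤ)) + 2097152 ≤ ((2097152 - Nat.div (Nat.mul (Nat.sub y x)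
      1512775394263040) (Nat.mul y 1000000000) : ℕ) : ℤ)
    generalize Nat.div (Nat.mul (Nat.sub y x) 1512775394263040) (Nat.mul y 1000000000) = q
    have e : Int.neg (q : ℤ) = -(q : ℤ) := rfl
    rw [e]
    omega
  | true =>
    simp only [Int.ofNat_eq_natCast, Nat.add_eq, Nat.succ_eq_add_one]
    omega

theorem goM_nil (U1 U2 V1 V2 M1 M2 : ℕ) (k : ℕ → ℕ → ℕ → Bool) (P s t : ℕ) :
    goM U1 U2 V1 V2 M1 M2 k [] P s t = k P s t := rfl

theorem goM_cons (U1 U2 V1 V2 M1 M2 : ℕ) (k : ℕ → ℕ → ℕ → Bool) (r : ℕ × ℕ) (l : List (ℕ × ℕ))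
    (P s t : ℕ) : goM U1 U2 V1 V2 M1 M2 k (r :: l) P s t =
      frc (Nat.add (sqd U1 r.1) (sqd U2 r.2)) fun a =>
      frc (Nat.add (sqd V1 r.1) (sqd V2 r.2)) fun b =>
      frc (clam a b (Nat.add (sqd M1 r.1) (sqd M2 r.2))) fun L =>
      frc (Nat.mul P L) fun P' => frc (Nat.add s (cCn a L)) fun s' =>
      frc (Nat.add t (cCn b L)) fun t' => and (Nat.ble 1 L)
        (goM U1 U2 V1 V2 M1 M2 k l P' s' t') := rfl

theorem sqd_cn {x y : ℤ} (hx : -67108864 ≤ x) (hy : -67108864 ≤ y) :
    sqd (cn x) (cn y) = (x - y).natAbs ^ 2 := by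
  rw [sqd_eq, cn_eq hx, cn_eq hy]
  congr 2
  ring

theorem goM_spec {u v : ℤ × ℤ} (hu1 : -67108864 ≤ 2 * u.1) (hu2 : -67108864 ≤ 2 * u.2)
    (hv1 : -67108864 ≤ 2 * v.1) (hv2 : -67108864 ≤ 2 * v.2) (k : ℕ → ℕ → ℕ → Bool)
    (l : List (ℤ × ℤ)) : ∀ (hl : ∀ r ∈ l, -67108864 ≤ 2048 * r.1 ∧ -67108864 ≤ 2048 * r.2)
      (P : ℕ) (s t : ℤ) (c sn tn : ℕ), s + 2097152 * (c : ℤ) ≤ sn → t + 2097152 * (c : ℤ) ≤ tn →
      goM (cn (2 * u.1)) (cn (2 * u.2)) (cn (2 * v.1)) (cn (2 * v.2)) (cn (u.1 + v.1))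
        (cn (u.2 + v.2)) k (l.map rtn) P sn tn = true →
      ∃ (P' : ℕ) (s' t' : ℤ) (sn' tn' : ℕ), k P' sn' tn' = true ∧
        (∀ k' : ℕ → ℤ → ℤ → Bool, goN u v k' l P s t = k' P' s' t') ∧
        s' + 2097152 * ((c + l.length : ℕ) : ℤ) ≤ sn' ∧
        t' + 2097152 * ((c + l.length : ℕ) : ℤ) ≤ tn' := by
  induction l with
  | nil =>
    intro _ P s t c sn tn hs ht h
    exact ⟨P, s, t, sn, tn, h, fun k' => rfl, by simpa using hs, by simpa using ht⟩
  | cons r l ih =>
    intro hl P s t c sn tn hs ht h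
    have hr := hl r (by simp)
    rw [List.map_cons, goM_cons] at h
    simp only [frc_eq, rtn] at h
    rw [sqd_cn hu1 hr.1, sqd_cn hu2 hr.2, sqd_cn hv1 hr.1, sqd_cn hv2 hr.2,
      sqd_cn (by omega) hr.1, sqd_cn (by omega) hr.2] at h
    have ea : Nat.add ((2 * u.1 - 2048 * r.1).natAbs ^ 2) ((2 * u.2 - 2048 * r.2).natAbs ^ 2) =
        cqe u r := rfl
    have eb : Nat.add ((2 * v.1 - 2048 * r.1).natAbs ^ 2) ((2 * v.2 - 2048 * r.2).natAbs ^ 2) =
        cqe v r := rfl
    have em : Nat.add ((u.1 + v.1 - 2048 * r.1).natAbs ^ 2)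
        ((u.2 + v.2 - 2048 * r.2).natAbs ^ 2) = cqm u v r := rfl
    rw [ea, eb, em] at h
    rw [Bool.and_eq_true] at h
    obtain ⟨hL, h⟩ := h
    set L := clam (cqe u r) (cqe v r) (cqm u v r) with hLd
    have c1 := cCn_ge (cqe u r) L
    have c2 := cCn_ge (cqe v r) L
    obtain ⟨P', s', t', sn', tn', hk, hg, h1, h2⟩ := ih (fun x hx => hl x (by simp [hx]))
      (Nat.mul P L) (Int.add s (cC (cqe u r) L)) (Int.add t (cC (cqe v r) L)) (c + 1)
      (Nat.add sn (cCn (cqe u r) L)) (Nat.add tn (cCn (cqe v r) L))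
      (by
        have e1 : Int.add s (cC (cqe u r) L) = s + cC (cqe u r) L := rfl
        rw [e1, Nat.add_eq]
        push_cast
        linarith only [hs, c1])
      (by
        have e1 : Int.add t (cC (cqe v r) L) = t + cC (cqe v r) L := rfl
        rw [e1, Nat.add_eq]
        push_cast
        linarith only [ht, c2]) h
    refine ⟨P', s', t', sn', tn', hk, fun k' => ?_, ?_, ?_⟩
    · rw [Run_goN_cons]
      simp only [frc_eq, frcZ_eq]
      rw [← hLd, hL, Bool.true_and]
      exact hg k'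
    · rw [List.length_cons]
      have e : c + (l.length + 1) = c + 1 + l.length := by ring
      rw [e]
      exact h1
    · rw [List.length_cons]
      have e : c + (l.length + 1) = c + 1 + l.length := by ring
      rw [e]
      exact h2

theorem entM_spec {u v : ℤ × ℤ} (hu1 : -67108864 ≤ 2 * u.1) (hu2 : -67108864 ≤ 2 * u.2)
    (hv1 : -67108864 ≤ 2 * v.1) (hv2 : -67108864 ≤ 2 * v.2) {f : Fac} (hf : facOK f = true)
    {k : ℕ × ℕ → Bool}
    (h : entM (cn (2 * u.1)) (cn (2 * u.2)) (cn (2 * v.1)) (cn (2 * v.2)) (cn (u.1 + v.1))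
      (cn (u.2 + v.2)) (facn f).1 (facn f).2 k = true) :
    ∃ (e : ℕ × ℤ × ℤ) (p : ℕ × ℕ), okN u v f.roots (44040192 * (f.roots.length : ℤ)) e = true ∧
      RelT e p ∧ p.1 ≤ 8589934592 ∧ p.2 ≤ 8589934592 ∧ k p = true := by
  unfold entM facn at h
  simp only at h
  have hl : ∀ r ∈ f.roots, -67108864 ≤ 2048 * r.1 ∧ -67108864 ≤ 2048 * r.2 := by
    intro r hr
    have := List.all_eq_true.mp hf r hr
    simpa using this
  obtain ⟨P', s', t', sn', tn', hk, hg, h1, h2⟩ := goM_spec hu1 hu2 hv1 hv2 _ f.roots hl 1 0 0 0 0 0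
    (by simp) (by simp) h
  obtain ⟨G, hG, hk⟩ := DetX.lgU_ex hk
  simp only [frc_eq, Bool.and_eq_true, Nat.ble_eq] at hk
  obtain ⟨ha, hb, hk⟩ := hk
  refine ⟨(G, 32 * (G : ℤ) - 44040192 * (f.roots.length : ℤ) + s',
    32 * (G : ℤ) - 44040192 * (f.roots.length : ℤ) + t'), _, ?_, ⟨?_, ?_⟩, ha, hb, hk⟩
  · unfold okN
    rw [hg]
    simp only [Bool.and_eq_true, zle_iff]
    exact ⟨Nat.ble_eq.mpr hG, le_rfl, le_rfl⟩
  · simp only [Nat.sub_eq, Nat.add_eq, Nat.mul_eq]
    simp only [zero_add] at h1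
    omega
  · simp only [Nat.sub_eq, Nat.add_eq, Nat.mul_eq]
    simp only [zero_add] at h2
    omega

theorem runLM_nil (U1 U2 V1 V2 M1 M2 : ℕ) (k : List (ℕ × ℕ) → Bool) :
    runLM U1 U2 V1 V2 M1 M2 [] k = k [] := rfl

theorem runLM_cons (U1 U2 V1 V2 M1 M2 : ℕ) (R : List (ℕ × ℕ) × ℕ) (Rs : List (List (ℕ × ℕ) × ℕ))
    (k : List (ℕ × ℕ) → Bool) : runLM U1 U2 V1 V2 M1 M2 (R :: Rs) k =
    entM U1 U2 V1 V2 M1 M2 R.1 R.2 fun e => runLM U1 U2 V1 V2 M1 M2 Rs fun T => k (e :: T) := rfl

theorem runLM_spec {u v : ℤ × ℤ} (hu1 : -67108864 ≤ 2 * u.1) (hu2 : -67108864 ≤ 2 * u.2)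
    (hv1 : -67108864 ≤ 2 * v.1) (hv2 : -67108864 ≤ 2 * v.2) (fs : List Fac) :
    (∀ f ∈ fs, facOK f = true) → ∀ {k : List (ℕ × ℕ) → Bool},
    runLM (cn (2 * u.1)) (cn (2 * u.2)) (cn (2 * v.1)) (cn (2 * v.2)) (cn (u.1 + v.1))
      (cn (u.2 + v.2)) (fs.map facn) k = true →
    ∃ T T', okL u v fs T = true ∧ List.Forall₂ RelT T T' ∧ T.length = fs.length ∧
      (∀ p ∈ T', p.1 ≤ 8589934592 ∧ p.2 ≤ 8589934592) ∧ k T' = true := by
  induction fs with
  | nil =>
    intro _ k h
    exact ⟨[], [], rfl, List.Forall₂.nil, rfl, by simp, h⟩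
  | cons f fs ih =>
    intro hf k h
    rw [List.map_cons, runLM_cons] at h
    obtain ⟨e, p, he, hep, hp1, hp2, h⟩ := entM_spec hu1 hu2 hv1 hv2 (hf f (by simp)) h
    obtain ⟨T, T', hT, hR, hlT, hb, hk⟩ := ih (fun g hg => hf g (by simp [hg])) h
    refine ⟨e :: T, p :: T', ?_, List.Forall₂.cons hep hR, by simp [hlT], ?_, hk⟩
    · rw [Run_okL_cons, he, hT, Bool.and_true]
    · intro q hq
      rcases List.mem_cons.mp hq with rfl | hq
      · exact ⟨hp1, hp2⟩
      · exact hb q hq

/-- first dot product -/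
def dA : List ℕ → List (ℕ × ℕ) → ℕ
  | e :: es, p :: T => e * p.1 + dA es T
  | _, _ => 0

/-- second dot product -/
def dB : List ℕ → List (ℕ × ℕ) → ℕ
  | e :: es, p :: T => e * p.2 + dB es T
  | _, _ => 0

theorem dA_nil (T : List (ℕ × ℕ)) : dA [] T = 0 := by cases T <;> rfl

theorem dA_nil' (es : List ℕ) : dA es [] = 0 := by cases es <;> rfl

theorem dB_nil (T : List (ℕ × ℕ)) : dB [] T = 0 := by cases T <;> rfl

theorem dB_nil' (es : List ℕ) : dB es [] = 0 := by cases es <;> rfl

theorem dotK_eq (es : List ℕ) : ∀ (T : List (ℕ × ℕ)) (s t : ℕ) (k : ℕ → ℕ → Bool),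
    dotK es T s t k = k (s + dA es T) (t + dB es T) := by
  induction es with
  | nil => intro T s t k; rw [dotK_nil, dA_nil, dB_nil, add_zero, add_zero]
  | cons e es ih =>
    intro T s t k
    cases T with
    | nil => rw [dA_nil', dB_nil', add_zero, add_zero]; rfl
    | cons p T =>
      rw [dotK_cons, frc_eq, frc_eq, ih]
      simp only [dA, dB, Nat.add_eq, Nat.mul_eq, add_assoc]

theorem dA_map (E : List ℕ) (c : ℕ) : ∀ T : List (ℕ × ℕ),
    dA (E.map (fun x => c * x)) T = c * dA E T := by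
  induction E with
  | nil => intro T; rw [List.map_nil, dA_nil, mul_zero]
  | cons x E ih =>
    intro T
    cases T with
    | nil => rw [dA_nil', dA_nil', mul_zero]
    | cons p T => simp only [List.map_cons, dA, ih T]; ring

theorem dB_map (E : List ℕ) (c : ℕ) : ∀ T : List (ℕ × ℕ),
    dB (E.map (fun x => c * x)) T = c * dB E T := by
  induction E with
  | nil => intro T; rw [List.map_nil, dB_nil, mul_zero]
  | cons x E ih =>
    intro T
    cases T with
    | nil => rw [dB_nil', dB_nil', mul_zero]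
    | cons p T => simp only [List.map_cons, dB, ih T]; ring

theorem dA_addRow (es : List ℕ) : ∀ (E : List ℕ) (T : List (ℕ × ℕ)), es.length ≤ E.length →
    dA (addRow es E) T = dA es T + 18446744073709551616 * dA E T := by
  induction es with
  | nil => intro E T _; simp only [addRow, dA_map, dA_nil, zero_add]
  | cons e es ih =>
    intro E T hl
    cases E with
    | nil => simp at hl
    | cons x E =>
      cases T with
      | nil => simp only [dA_nil', mul_zero, add_zero]
      | cons p T =>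
        simp only [addRow, dA, ih E T (by simpa using hl)]
        ring

theorem dB_addRow (es : List ℕ) : ∀ (E : List ℕ) (T : List (ℕ × ℕ)), es.length ≤ E.length →
    dB (addRow es E) T = dB es T + 18446744073709551616 * dB E T := by
  induction es with
  | nil => intro E T _; simp only [addRow, dB_map, dB_nil, zero_add]
  | cons e es ih =>
    intro E T hl
    cases E with
    | nil => simp at hl
    | cons x E =>
      cases T with
      | nil => simp only [dB_nil', mul_zero, add_zero]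
      | cons p T =>
        simp only [addRow, dB, ih E T (by simpa using hl)]
        ring

theorem addRow_length (es : List ℕ) : ∀ (E : List ℕ), es.length ≤ E.length →
    (addRow es E).length = E.length := by
  induction es with
  | nil => intro E _; simp [addRow]
  | cons e es ih =>
    intro E hl
    cases E with
    | nil => simp at hl
    | cons x E => simp only [addRow, List.length_cons, ih E (by simpa using hl)]

theorem dA_replicate (n : ℕ) : ∀ T : List (ℕ × ℕ), dA (List.replicate n 0) T = 0 := by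
  induction n with
  | zero => intro T; exact dA_nil T
  | succ n ih =>
    intro T
    cases T with
    | nil => exact dA_nil' _
    | cons p T => simp only [List.replicate_succ, dA, ih T, zero_mul, add_zero]

theorem dB_replicate (n : ℕ) : ∀ T : List (ℕ × ℕ), dB (List.replicate n 0) T = 0 := by
  induction n with
  | zero => intro T; exact dB_nil T
  | succ n ih =>
    intro T
    cases T with
    | nil => exact dB_nil' _
    | cons p T => simp only [List.replicate_succ, dB, ih T, zero_mul, add_zero]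

theorem dA_le (es : List ℕ) : ∀ (T : List (ℕ × ℕ)), (∀ p ∈ T, p.1 ≤ 8589934592) →
    dA es T ≤ es.sum * 8589934592 := by
  induction es with
  | nil => intro T _; rw [dA_nil]; exact Nat.zero_le _
  | cons e es ih =>
    intro T h
    cases T with
    | nil => rw [dA_nil']; exact Nat.zero_le _
    | cons p T =>
      have h1 := ih T (fun q hq => h q (by simp [hq]))
      have h2 := Nat.mul_le_mul_left e (h p (by simp))
      simp only [dA, List.sum_cons, add_mul]
      omega

theorem dB_le (es : List ℕ) : ∀ (T : List (ℕ × ℕ)), (∀ p ∈ T, p.2 ≤ 8589934592) →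
    dB es T ≤ es.sum * 8589934592 := by
  induction es with
  | nil => intro T _; rw [dB_nil]; exact Nat.zero_le _
  | cons e es ih =>
    intro T h
    cases T with
    | nil => rw [dB_nil']; exact Nat.zero_le _
    | cons p T =>
      have h1 := ih T (fun q hq => h q (by simp [hq]))
      have h2 := Nat.mul_le_mul_left e (h p (by simp))
      simp only [dB, List.sum_cons, add_mul]
      omega

theorem dA_rel (es : List ℕ) : ∀ (T : List (ℕ × ℤ × ℤ)) (T' : List (ℕ × ℕ)),
    List.Forall₂ RelT T T' → es.length ≤ T.length →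
    dot1 es T 0 + 4294967296 * (es.sum : ℤ) ≤ (dA es T' : ℤ) ∧
    dot2 es T 0 + 4294967296 * (es.sum : ℤ) ≤ (dB es T' : ℤ) := by
  induction es with
  | nil =>
    intro T T' _ _
    cases T <;> simp [dot1, dot2, dA_nil, dB_nil]
  | cons e es ih =>
    intro T T' hR hl
    cases hR with
    | nil => simp at hl
    | @cons a p T T' hap hR =>
      obtain ⟨h1, h2⟩ := ih T T' hR (by simpa using hl)
      have e1 : (e : ℤ) * (a.2.1 + 4294967296) ≤ e * (p.1 : ℤ) :=
        mul_le_mul_of_nonneg_left hap.1 (Int.natCast_nonneg e)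
      have e2 : (e : ℤ) * (a.2.2 + 4294967296) ≤ e * (p.2 : ℤ) :=
        mul_le_mul_of_nonneg_left hap.2 (Int.natCast_nonneg e)
      rw [dot1_cons, dot2_cons, List.sum_cons]
      simp only [dA, dB, Nat.cast_add, Nat.cast_mul]
      exact ⟨by linarith only [h1, e1], by linarith only [h2, e2]⟩

theorem chkPk_cons (M : ℕ) (Ms : List ℕ) (S : ℕ) : chkPk (M :: Ms) S =
    and (Nat.ble (Nat.mod S 18446744073709551616) M)
      (frc (Nat.div S 18446744073709551616) (chkPk Ms)) := rfl

theorem colPack_length (n : ℕ) : ∀ (lev : List (List ℕ × ℤ)),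
    (∀ L ∈ lev, L.1.length ≤ n) → (colPack n lev).length = n := by
  intro lev
  induction lev with
  | nil => intro _; simp [colPack]
  | cons L lev ih =>
    intro h
    have h1 := ih (fun x hx => h x (by simp [hx]))
    simp only [colPack]
    rw [addRow_length _ _ (by rw [h1]; exact h L (by simp)), h1]

theorem cvOKM_len {n : ℕ} : ∀ {lev : List (List ℕ × ℤ)} {Ms : List ℕ},
    cvOKM n lev Ms = true → ∀ L ∈ lev, L.1.length ≤ n := by
  intro lev
  induction lev with
  | nil => intro Ms _ L hL; simp at hL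
  | cons L lev ih =>
    intro Ms h
    cases Ms with
    | nil => simp [cvOKM] at h
    | cons M Ms =>
      simp only [cvOKM, Bool.and_eq_true, decide_eq_true_eq] at h
      intro X hX
      rcases List.mem_cons.mp hX with rfl | hX
      · exact h.1
      · exact ih h.2.2.2 X hX

theorem okLevM_spec {T : List (ℕ × ℤ × ℤ)} {T' : List (ℕ × ℕ)} (hR : List.Forall₂ RelT T T')
    (hb : ∀ p ∈ T', p.1 ≤ 8589934592 ∧ p.2 ≤ 8589934592)
    {c1 c2 : ℕ} {d1 d2 : ℤ} (h1 : d1 + 1152921504606846976 ≤ c1)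
    (h2 : d2 + 1152921504606846976 ≤ c2) (hc1 : c1 ≤ 4611686018427387904)
    (hc2 : c2 ≤ 4611686018427387904) : ∀ (lev : List (List ℕ × ℤ)) (Ms : List ℕ),
    cvOKM T.length lev Ms = true →
    chkPk Ms (c1 * onesPack lev + dA (colPack T.length lev) T') = true →
    chkPk Ms (c2 * onesPack lev + dB (colPack T.length lev) T') = true →
    okLev T d1 d2 lev = true := by
  intro lev
  induction lev with
  | nil => intro Ms _ _ _; rfl
  | cons L lev ih =>
    intro Ms hcv k1 k2
    cases Ms with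
    | nil => simp [cvOKM] at hcv
    | cons M Ms =>
      simp only [cvOKM, Bool.and_eq_true, decide_eq_true_eq] at hcv
      obtain ⟨hlen, hsum, hval, hcv⟩ := hcv
      have hcl := colPack_length T.length lev (cvOKM_len hcv)
      simp only [colPack, onesPack] at k1 k2
      rw [dA_addRow _ _ _ (by rw [hcl]; exact hlen)] at k1
      rw [dB_addRow _ _ _ (by rw [hcl]; exact hlen)] at k2
      have eA : c1 * (1 + 18446744073709551616 * onesPack lev) + (dA L.1 T' +
          18446744073709551616 * dA (colPack T.length lev) T') = (c1 + dA L.1 T') +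
          18446744073709551616 * (c1 * onesPack lev + dA (colPack T.length lev) T') := by ring
      have eB : c2 * (1 + 18446744073709551616 * onesPack lev) + (dB L.1 T' +
          18446744073709551616 * dB (colPack T.length lev) T') = (c2 + dB L.1 T') +
          18446744073709551616 * (c2 * onesPack lev + dB (colPack T.length lev) T') := by ring
      rw [eA, chkPk_cons, frc_eq, Bool.and_eq_true] at k1
      rw [eB, chkPk_cons, frc_eq, Bool.and_eq_true] at k2
      obtain ⟨k1, k1'⟩ := k1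
      obtain ⟨k2, k2'⟩ := k2
      have bA := dA_le L.1 T' (fun p hp => (hb p hp).1)
      have bB := dB_le L.1 T' (fun p hp => (hb p hp).2)
      have lA : c1 + dA L.1 T' < 18446744073709551616 := by
        have := Nat.mul_le_mul_right 8589934592 hsum
        omega
      have lB : c2 + dB L.1 T' < 18446744073709551616 := by
        have := Nat.mul_le_mul_right 8589934592 hsum
        omega
      have mA : ((c1 + dA L.1 T') + 18446744073709551616 * (c1 * onesPack lev +
          dA (colPack T.length lev) T')).mod 18446744073709551616 = c1 + dA L.1 T' := by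
        show ((c1 + dA L.1 T') + 18446744073709551616 * (c1 * onesPack lev +
          dA (colPack T.length lev) T')) % 18446744073709551616 = c1 + dA L.1 T'
        rw [Nat.add_mul_mod_self_left, Nat.mod_eq_of_lt lA]
      have mB : ((c2 + dB L.1 T') + 18446744073709551616 * (c2 * onesPack lev +
          dB (colPack T.length lev) T')).mod 18446744073709551616 = c2 + dB L.1 T' := by
        show ((c2 + dB L.1 T') + 18446744073709551616 * (c2 * onesPack lev +
          dB (colPack T.length lev) T')) % 18446744073709551616 = c2 + dB L.1 T'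
        rw [Nat.add_mul_mod_self_left, Nat.mod_eq_of_lt lB]
      have qA : ((c1 + dA L.1 T') + 18446744073709551616 * (c1 * onesPack lev +
          dA (colPack T.length lev) T')).div 18446744073709551616 = c1 * onesPack lev +
          dA (colPack T.length lev) T' := by
        show ((c1 + dA L.1 T') + 18446744073709551616 * (c1 * onesPack lev +
          dA (colPack T.length lev) T')) / 18446744073709551616 = _
        rw [Nat.add_mul_div_left _ _ (by norm_num), Nat.div_eq_of_lt lA, zero_add]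
      have qB : ((c2 + dB L.1 T') + 18446744073709551616 * (c2 * onesPack lev +
          dB (colPack T.length lev) T')).div 18446744073709551616 = c2 * onesPack lev +
          dB (colPack T.length lev) T' := by
        show ((c2 + dB L.1 T') + 18446744073709551616 * (c2 * onesPack lev +
          dB (colPack T.length lev) T')) / 18446744073709551616 = _
        rw [Nat.add_mul_div_left _ _ (by norm_num), Nat.div_eq_of_lt lB, zero_add]
      rw [mA, Nat.ble_eq] at k1
      rw [mB, Nat.ble_eq] at k2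
      rw [qA] at k1'
      rw [qB] at k2'
      obtain ⟨r1, r2⟩ := dA_rel L.1 T T' hR hlen
      have k1z : (c1 : ℤ) + dA L.1 T' ≤ M := by exact_mod_cast k1
      have k2z : (c2 : ℤ) + dB L.1 T' ≤ M := by exact_mod_cast k2
      simp only [okLev, Bool.and_eq_true, zle_iff]
      refine ⟨?_, ?_, ih Ms hcv k1' k2'⟩
      · rw [dot1_add]
        linarith only [k1z, r1, hval, h1]
      · rw [dot2_add]
        linarith only [k2z, r2, hval, h2]

/-- consistency of the data -/
structure DatOK (fs : List Fac) (lev : List (List ℕ × ℤ)) (rs : List (List (ℕ × ℕ) × ℕ))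
    (pk Ms : List ℕ) (ones : ℕ) : Prop where
  hrs : rs = fs.map facn
  hfs : fs.all facOK = true
  hpk : pk = colPack fs.length lev
  hones : ones = onesPack lev
  hcv : cvOKM fs.length lev Ms = true

theorem runSubM_spec {fs : List Fac} {lev : List (List ℕ × ℤ)} {rs : List (List (ℕ × ℕ) × ℕ)}
    {pk Ms : List ℕ} {ones : ℕ} (D : DatOK fs lev rs pk Ms ones)
    {a b m : ℕ} {ex : ℤ} {u v : ℤ × ℤ} (hu1 : -67108864 ≤ 2 * u.1) (hu2 : -67108864 ≤ 2 * u.2)
    (hv1 : -67108864 ≤ 2 * v.1) (hv2 : -67108864 ≤ 2 * v.2)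
    (h : runSubM rs a b m pk Ms ones ex u v = true) :
    ∃ S, okSub fs a b m lev ex u v S = true := by
  unfold runSubM at h
  simp only [frc_eq] at h
  rw [D.hrs] at h
  obtain ⟨T, T', hT, hR, hlT, hb, h⟩ := runLM_spec hu1 hu2 hv1 hv2 fs
    (fun f hf => List.all_eq_true.mp D.hfs f hf) h
  obtain ⟨tU, hU, h⟩ := entN_spec h
  obtain ⟨tQ, hQ, h⟩ := entN_spec h
  obtain ⟨tT, hD, h⟩ := entD_spec h
  simp only [Bool.and_eq_true, Nat.ble_eq] at h
  obtain ⟨hc1, hc2, h⟩ := h
  rw [dotK_eq, Bool.and_eq_true, D.hpk, D.hones, ← hlT] at h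
  refine ⟨⟨tU, tQ, tT, T⟩, ?_⟩
  unfold okSub
  simp only [hT, hU, hQ, hD, Bool.true_and, frcZ_eq]
  exact okLevM_spec hR hb (Int.self_le_toNat _) (Int.self_le_toNat _) hc1 hc2 lev Ms
    (by rw [hlT]; exact D.hcv) h.1 h.2

theorem runSegmM_cons (rs : List (List (ℕ × ℕ) × ℕ)) (a b m : ℕ) (pk Ms : List ℕ) (ones : ℕ)
    (ex : ℤ) (U V : ℤ × ℤ) (i j : ℕ) (l : List ℕ) :
    runSegmM rs a b m pk Ms ones ex U V i (j :: l) =
      and (frcP (cpt U V i) fun u => frcP (cpt U V j) fun v =>
      runSubM rs a b m pk Ms ones ex u v) (runSegmM rs a b m pk Ms ones ex U V j l) := rfl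

theorem cpt_ge {U V : ℤ × ℤ} (hU1 : -32768 ≤ U.1) (hU2 : -32768 ≤ U.2) (hV1 : -32768 ≤ V.1)
    (hV2 : -32768 ≤ V.2) {i : ℕ} (hi : i ≤ 1024) :
    -67108864 ≤ 2 * (cpt U V i).1 ∧ -67108864 ≤ 2 * (cpt U V i).2 := by
  have hi' : (i : ℤ) ≤ 1024 := by exact_mod_cast hi
  have h0 : (0 : ℤ) ≤ i := Int.natCast_nonneg i
  have e1 : (cpt U V i).1 = U.1 * (1024 - i) + V.1 * i := by unfold cpt; ring
  have e2 : (cpt U V i).2 = U.2 * (1024 - i) + V.2 * i := by unfold cpt; ring
  rw [e1, e2]
  constructor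
  · nlinarith only [mul_le_mul_of_nonneg_right hU1 (sub_nonneg.2 hi'),
      mul_le_mul_of_nonneg_right hV1 h0]
  · nlinarith only [mul_le_mul_of_nonneg_right hU2 (sub_nonneg.2 hi'),
      mul_le_mul_of_nonneg_right hV2 h0]

theorem runSegmM_spec {fs : List Fac} {lev : List (List ℕ × ℤ)} {rs : List (List (ℕ × ℕ) × ℕ)}
    {pk Ms : List ℕ} {ones : ℕ} (D : DatOK fs lev rs pk Ms ones) {a b m : ℕ} {ex : ℤ}
    {U V : ℤ × ℤ} (hU1 : -32768 ≤ U.1) (hU2 : -32768 ≤ U.2) (hV1 : -32768 ≤ V.1)
    (hV2 : -32768 ≤ V.2) : ∀ (l : List ℕ) (i : ℕ), i ≤ 1024 → (∀ j ∈ l, j ≤ 1024) →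
    runSegmM rs a b m pk Ms ones ex U V i l = true →
    ∃ tab : List (ℕ × Sub), okSegm fs a b m lev ex U V i tab = true ∧
      lastPt i tab = lastN i l ∧ (l ≠ [] → tab ≠ []) := by
  intro l
  induction l with
  | nil => intro i _ _ _; exact ⟨[], rfl, rfl, fun h => absurd rfl h⟩
  | cons j l ih =>
    intro i hi hl h
    rw [runSegmM_cons] at h
    simp only [Bool.and_eq_true, frcP_eq] at h
    have hj : j ≤ 1024 := hl j (by simp)
    obtain ⟨S, hS⟩ := runSubM_spec D (cpt_ge hU1 hU2 hV1 hV2 hi).1 (cpt_ge hU1 hU2 hV1 hV2 hi).2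
      (cpt_ge hU1 hU2 hV1 hV2 hj).1 (cpt_ge hU1 hU2 hV1 hV2 hj).2 h.1
    obtain ⟨tab, h1, h2, _⟩ := ih j hj (fun x hx => hl x (by simp [hx])) h.2
    refine ⟨(j, S) :: tab, ?_, h2, fun _ => by simp⟩
    rw [Run_okSegm_cons, hS, h1, Bool.and_self]

theorem runSegmM_segment {fs : List Fac} {lev : List (List ℕ × ℤ)}
    {rs : List (List (ℕ × ℕ) × ℕ)} {pk Ms : List ℕ} {ones : ℕ} (D : DatOK fs lev rs pk Ms ones)
    {a b m : ℕ} {ex : ℤ} {U V : ℤ × ℤ} (hU1 : -32768 ≤ U.1) (hU2 : -32768 ≤ U.2)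
    (hV1 : -32768 ≤ V.1) (hV2 : -32768 ≤ V.2) {l : List ℕ} (hl : l ≠ [])
    (hle : (l.all fun j => decide (j ≤ 1024)) = true) (hlast : lastN 0 l = 1024)
    (h : runSegmM rs a b m pk Ms ones ex U V 0 l = true) :
    ∀ s ∈ segment ℝ (pnt10 U) (pnt10 V), GoodC fs a b m lev ex s := by
  obtain ⟨tab, h1, h2, h3⟩ := runSegmM_spec D hU1 hU2 hV1 hV2 l 0 (by norm_num)
    (fun j hj => by simpa using List.all_eq_true.mp hle j hj) h
  exact okSegm_segment (h3 hl) (h2.trans hlast) h1

theorem runSegmM_app {rs : List (List (ℕ × ℕ) × ℕ)} {a b m : ℕ} {pk Ms : List ℕ} {ones : ℕ}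
    {ex : ℤ} {U V : ℤ × ℤ} {j : ℕ} {l2 : List ℕ} : ∀ {l1 : List ℕ} {i : ℕ},
    runSegmM rs a b m pk Ms ones ex U V i l1 = true → lastN i l1 = j →
    runSegmM rs a b m pk Ms ones ex U V j l2 = true →
    runSegmM rs a b m pk Ms ones ex U V i (l1 ++ l2) = true := by
  intro l1
  induction l1 with
  | nil =>
    intro i _ hj h
    simp only [lastN] at hj
    subst hj
    exact h
  | cons j l ih =>
    intro i h1 hj h2
    rw [runSegmM_cons] at h1
    simp only [Bool.and_eq_true] at h1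
    simp only [lastN] at hj
    rw [List.cons_append, runSegmM_cons]
    simp only [Bool.and_eq_true]
    exact ⟨h1.1, ih h1.2 hj h2⟩

end Vale.Agent.P021.DetX
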